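import Vale.Agent.P273.D14.H593.PixPull

/-!
Decorations of too large degree: the dual pullbacks of a functional of degree 9 in genus 2 whose
support is restricted vanish on them.
-/

noncomputable section
namespace Vale.Agent.P273.D14.Mv
open Sum Vale.Agent.P273 Vale.Agent.P273.C1.R3B Vale.Agent.P273.C1.R1B
open scoped Classical

variable {V E V' E' L M N X R T : Type}

/-- The degree of the decorations at `v`. -/
def ddg (G : Gr V E L) (v : V) : ℕ := (G.dec v).2.sum + ∑ᶠ (y) (_ : (G.hf y).1 = v), (G.hf y).2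

/-- The number of half-edges at `v` that belong to edges. -/
def ne (G : Gr V E L) (v : V) : ℕ := Nat.card {y : E × Bool // (G.hf (inl y)).1 = v}

/-- The support condition. -/
def SPp (s : Q.Fn X) : Prop := ∀ (V E : Type) (H : Gr V E X), sg s H ≠ 0 → ∀ v,
  (H.dec v).1 ≤ 1 ∧ ∃ k, 1 ≤ k ∧ H.nv v = 2 * k + ne H v ∧ ddg H v + 1 = k + (H.dec v).1 ∧
    ((H.dec v).1 = 0 → k = 1)

/-- The bridge condition. -/
def BRp (s : Q.Fn X) : Prop := ∀ (V E : Type) (G0 : Gr V E X) (t : E) (b : Bool) (S : Set V),
  (∀ e, e ≠ t → ((G0.hf (inl (e, true))).1 ∈ S ↔ (G0.hf (inl (e, false))).1 ∈ S)) →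
  (G0.hf (inl (t, b))).1 ∈ S → (G0.hf (inl (t, !b))).1 ∉ S → sg s G0 ≠ 0 →
  ∃ v, (S = {v} ∨ Sᶜ = {v}) ∧ (G0.dec v).1 = 0 ∧ G0.nv v = 3

/-! ### Counting -/

lemma ne_zero_genus [Finite E] {H : Gr V E X} (h : Q.Valid H.dec H.hf 2 9) (v : V)
    (h0 : ne H v = 0) : (H.dec v).1 = 2 := by
  obtain ⟨⟨hV, -, -, hconn, hgen, -, -⟩, -⟩ := h
  have hno : ∀ y : E × Bool, (H.hf (inl y)).1 ≠ v := by
    intro y hy
    have : Nonempty {y : E × Bool // (H.hf (inl y)).1 = v} := ⟨⟨y, hy⟩⟩
    have : 0 < ne H v := Nat.card_pos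
    omega
  have h5 : ∀ w, w = v := by
    rcases hconn {v} (fun e => ⟨fun h => absurd h (hno _), fun h => absurd h (hno _)⟩) with h3 | h3
    · exact absurd h3 (Set.singleton_ne_empty v)
    · intro w
      have : w ∈ ({v} : Set V) := by rw [h3]; trivial
      exact this
  have hE : IsEmpty E := ⟨fun e => hno (e, true) (h5 _)⟩
  have hU : Unique V := ⟨⟨v⟩, h5⟩
  rw [finsum_unique] at hgen
  have h6 : (default : V) = v := h5 _
  rw [h6, Nat.card_of_isEmpty (α := E), Nat.card_unique] at hgen
  omega

lemma card_fib [Fintype V] [Finite E] (H : Gr V E X) : Nat.card (E × Bool) = ∑ v, ne H v := by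
  have := Fintype.ofFinite E
  unfold ne
  simp only [Nat.card_eq_fintype_card]
  rw [← Fintype.card_sigma]
  exact Fintype.card_congr (Equiv.sigmaFiberEquiv fun y : E × Bool => (H.hf (inl y)).1).symm

lemma four_le' {Y : Type} [Finite Y] (P : Y → Prop) (y₁ y₂ y₃ y₄ : Y) (h₁ : P y₁) (h₂ : P y₂)
    (h₃ : P y₃) (h₄ : P y₄) (h12 : y₁ ≠ y₂) (h13 : y₁ ≠ y₃) (h14 : y₁ ≠ y₄) (h23 : y₂ ≠ y₃)
    (h24 : y₂ ≠ y₄) (h34 : y₃ ≠ y₄) : 4 ≤ Nat.card {y // P y} := by
  have : Nat.card (Fin 4) ≤ Nat.card {y // P y} := by
    refine Nat.card_le_card_of_injective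
      (![⟨y₁, h₁⟩, ⟨y₂, h₂⟩, ⟨y₃, h₃⟩, ⟨y₄, h₄⟩] : Fin 4 → {y // P y}) ?_
    intro i j hij
    fin_cases i <;> fin_cases j <;> simp_all
  simpa using this

lemma card_or_le {Y : Type} [Finite Y] (P P' : Y → Prop) :
    Nat.card {y // P y ∨ P' y} ≤ Nat.card {y // P y} + Nat.card {y // P' y} := by
  have := Fintype.ofFinite Y
  simp only [Nat.card_eq_fintype_card]
  exact Fintype.card_subtype_or P P'

lemma bool_ne {b b0 : Bool} (h : ¬ b = b0) : b = !b0 := by
  cases b <;> cases b0 <;> simp_all

/-- Two rational vertices joined by an edge, with at most seven half-edges together. -/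
theorem two_false {s : Q.Fn X} (hT : Q.Tr 2 9 s) (hS : SPp s) (hB : BRp s) [Finite X]
    (H : Gr V E X) (hH : sg s H ≠ 0) {u v : V} (huv : u ≠ v) (hu : (H.dec u).1 = 0)
    (hv : (H.dec v).1 = 0) (e0 : E) (b0 : Bool) (h1 : (H.hf (inl (e0, b0))).1 = u)
    (h2 : (H.hf (inl (e0, !b0))).1 = v) (h7 : H.nv u + H.nv v ≤ 7) : False := by
  have hval : Q.Valid H.dec H.hf 2 9 := by
    by_contra h
    exact hH (hT.1 _ _ _ _ h)
  have hVf : Finite V := hval.1.1
  have hEf : Finite E := hval.1.2.1
  have := Fintype.ofFinite V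
  have hconn := hval.1.2.2.2.1
  have hgen := hval.1.2.2.2.2.1
  obtain ⟨-, k, -, k1, -, k2⟩ := hS V E H hH u
  rw [k2 hu] at k1
  obtain ⟨-, k', -, k1', -, k2'⟩ := hS V E H hH v
  rw [k2' hv] at k1'
  have h3 : ne H u + ne H v ≤ 3 := by omega
  set S : Set V := {u, v} with hSdef
  have huS : u ∈ S := Or.inl rfl
  have hvS : v ∈ S := Or.inr rfl
  have hcount : Nat.card {y : E × Bool // (H.hf (inl y)).1 = u ∨ (H.hf (inl y)).1 = v} ≤ 3 :=
    (card_or_le _ _).trans h3
  have hfour : ∀ y₁ y₂ y₃ y₄ : E × Bool, (H.hf (inl y₁)).1 ∈ S → (H.hf (inl y₂)).1 ∈ S →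
      (H.hf (inl y₃)).1 ∈ S → (H.hf (inl y₄)).1 ∈ S → y₁ ≠ y₂ → y₁ ≠ y₃ → y₁ ≠ y₄ → y₂ ≠ y₃ →
      y₂ ≠ y₄ → y₃ ≠ y₄ → False := by
    intro y₁ y₂ y₃ y₄ a1 a2 a3 a4 a5 a6 a7 a8 a9 a10
    have := four_le' (fun y : E × Bool => (H.hf (inl y)).1 = u ∨ (H.hf (inl y)).1 = v)
      y₁ y₂ y₃ y₄ a1 a2 a3 a4 a5 a6 a7 a8 a9 a10
    omega
  have h1S : (H.hf (inl (e0, b0))).1 ∈ S := by rw [h1]; exact huS
  have h2S : (H.hf (inl (e0, !b0))).1 ∈ S := by rw [h2]; exact hvS
  have hne0 : ((e0, b0) : E × Bool) ≠ (e0, !b0) := by simp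
  by_cases hcase : ∀ e, e ≠ e0 → ∀ b, (H.hf (inl (e, b))).1 ∉ S
  · -- closed
    have hclosed : S = Set.univ := by
      rcases hconn S (by
        intro e
        by_cases he : e = e0
        · subst he
          have : ∀ b, (H.hf (inl (e, b))).1 ∈ S := by
            intro b
            by_cases hb : b = b0
            · rw [hb]; exact h1S
            · rw [bool_ne hb]; exact h2S
          exact ⟨fun _ => this _, fun _ => this _⟩
        · exact ⟨fun h => absurd h (hcase e he _), fun h => absurd h (hcase e he _)⟩) with h | h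
      · rw [h] at huS; exact absurd huS (Set.notMem_empty _)
      · exact h
    have huniv : (Finset.univ : Finset V) = {u, v} := by
      ext w
      have : w ∈ S := by rw [hclosed]; trivial
      simp only [Finset.mem_univ, Finset.mem_insert, Finset.mem_singleton, true_iff]
      exact this
    have hc2 : Nat.card V = 2 := by
      rw [Nat.card_eq_fintype_card, ← Finset.card_univ, huniv, Finset.card_pair huv]
    have hEB := card_fib H
    rw [huniv, Finset.sum_pair huv, Nat.card_prod] at hEB
    have hg0 : ∑ᶠ w, (H.dec w).1 = 0 := by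
      refine finsum_eq_zero_of_forall_eq_zero fun w => ?_
      have : w ∈ S := by rw [hclosed]; trivial
      rcases this with h | h
      · rw [h]; exact hu
      · rw [h]; exact hv
    rw [hg0, hc2] at hgen
    simp only [Nat.card_eq_fintype_card, Fintype.card_bool] at hEB
    omega
  · push Not at hcase
    obtain ⟨e1, he1, b1, hb1⟩ := hcase
    have hothers : ∀ e, e ≠ e0 → e ≠ e1 → ∀ b, (H.hf (inl (e, b))).1 ∉ S := by
      intro e he he' b hb
      exact hfour (e0, b0) (e0, !b0) (e1, b1) (e, b) h1S h2S hb1 hb hne0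
        (fun h => he1 (congrArg Prod.fst h).symm) (fun h => he (congrArg Prod.fst h).symm)
        (fun h => he1 (congrArg Prod.fst h).symm) (fun h => he (congrArg Prod.fst h).symm)
        (fun h => he' (congrArg Prod.fst h).symm)
    have hother1 : (H.hf (inl (e1, !b1))).1 ∉ S := by
      intro hb
      exact hfour (e0, b0) (e0, !b0) (e1, b1) (e1, !b1) h1S h2S hb1 hb hne0
        (fun h => he1 (congrArg Prod.fst h).symm) (fun h => he1 (congrArg Prod.fst h).symm)
        (fun h => he1 (congrArg Prod.fst h).symm) (fun h => he1 (congrArg Prod.fst h).symm)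
        (by simp)
    obtain ⟨w, hw, hw1, hw2⟩ := hB V E H e1 b1 S (by
      intro e he
      by_cases he' : e = e0
      · subst he'
        have : ∀ b, (H.hf (inl (e, b))).1 ∈ S := by
          intro b
          by_cases hb : b = b0
          · rw [hb]; exact h1S
          · rw [bool_ne hb]; exact h2S
        exact ⟨fun _ => this _, fun _ => this _⟩
      · exact ⟨fun h => absurd h (hothers e he' he _), fun h => absurd h (hothers e he' he _)⟩)
      hb1 hother1 hH
    rcases hw with hw | hw
    · rw [hw] at huS hvS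
      exact huv (huS.trans hvS.symm)
    · have hmem : ∀ x, x = u ∨ x = v ∨ x = w := by
        intro x
        by_cases hx : x ∈ S
        · rcases hx with h | h
          · exact Or.inl h
          · exact Or.inr (Or.inl h)
        · have : x ∈ Sᶜ := hx
          rw [hw] at this
          exact Or.inr (Or.inr this)
      have hwS : w ∉ S := by
        have : w ∈ Sᶜ := by rw [hw]; rfl
        exact this
      have hwu : u ≠ w := fun h => hwS (h ▸ huS)
      have hwv : v ≠ w := fun h => hwS (h ▸ hvS)
      have huniv : (Finset.univ : Finset V) = {u, v, w} := by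
        ext x
        simpa using hmem x
      have hnot : u ∉ ({v, w} : Finset V) := by simp [huv, hwu]
      have hc3 : Nat.card V = 3 := by
        rw [Nat.card_eq_fintype_card, ← Finset.card_univ, huniv, Finset.card_insert_of_notMem hnot,
          Finset.card_pair hwv]
      have hEB := card_fib H
      rw [huniv, Finset.sum_insert hnot, Finset.sum_pair hwv, Nat.card_prod] at hEB
      have hgw : (H.dec w).1 = 0 := hw1
      obtain ⟨-, k'', -, k1'', -, k2''⟩ := hS V E H hH w
      rw [k2'' hgw, hw2] at k1''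
      have hg0 : ∑ᶠ x, (H.dec x).1 = 0 := by
        refine finsum_eq_zero_of_forall_eq_zero fun x => ?_
        rcases hmem x with h | h | h
        · rw [h]; exact hu
        · rw [h]; exact hv
        · rw [h]; exact hgw
      rw [hg0, hc3] at hgen
      simp only [Nat.card_eq_fintype_card, Fintype.card_bool] at hEB
      omega

/-! ### Degrees of the decorations -/

lemma ddg_addLeg [Finite E] [Finite L] (G : Gr V E L) (w : V) (K : Multiset ℕ) (c : ℕ)
    (hK : K.sum + c = (G.dec w).2.sum) (v : V) : ddg (G.addLeg w K c) v = ddg G v := by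
  unfold ddg
  rw [psi_eq_finsum, psi_eq_finsum, finsum_flags]
  have e1 : ∑ᶠ y, (if ((G.addLeg w K c).hf (optEquiv E L (some y))).1 = v then
      ((G.addLeg w K c).hf (optEquiv E L (some y))).2 else 0) =
      ∑ᶠ y, if (G.hf y).1 = v then (G.hf y).2 else 0 := by
    apply finsum_congr
    rintro (y | y) <;> rfl
  have e2 : (G.addLeg w K c).hf (inr none) = (w, c) := rfl
  rw [e1, e2]
  dsimp only
  by_cases h : w = v
  · subst h
    rw [if_pos rfl, addLeg_dec_self]
    dsimp only
    omega
  · rw [if_neg h, addLeg_dec_ne _ (Ne.symm h)]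
    omega

lemma ddg_bubble [Finite E] [Finite L] (G : Gr V E L) (z : (E × Bool) ⊕ L)
    (hz : (G.hf z).2 ≠ 0) (v : V) :
    ddg G v = ddg (G.bubble z) (some v) + if (G.hf z).1 = v then 1 else 0 := by
  have := Fintype.ofFinite E
  have := Fintype.ofFinite L
  unfold ddg
  have e0 : (G.bubble z).dec (some v) = G.dec v := rfl
  rw [psi_eq_finsum, psi_eq_finsum, finsum_bub, bubble_new_true, bubble_new_false, bubble_new_leg,
    e0]
  simp only [reduceCtorEq, if_false, zero_add, add_zero, Option.some.injEq, bubble_old]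
  have e1 : ∑ᶠ y, (if (bubold G z y).1 = some v then (bubold G z y).2 else 0) +
      (if (G.hf z).1 = v then (G.hf z).2 else 0) =
      ∑ᶠ y, if (G.hf y).1 = v then (G.hf y).2 else 0 := by
    rw [finsum_eq_sum_of_fintype, finsum_eq_sum_of_fintype, ← Finset.sum_erase_add _ _
      (Finset.mem_univ z), ← Finset.sum_erase_add Finset.univ (fun y =>
        if (G.hf y).1 = v then (G.hf y).2 else 0) (Finset.mem_univ z)]
    have e2 : (if (bubold G z z).1 = some v then (bubold G z z).2 else 0) = 0 := by
      unfold bubold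
      simp
    rw [e2, add_zero]
    congr 1
    apply Finset.sum_congr rfl
    intro y hy
    unfold bubold
    rw [if_neg (Finset.ne_of_mem_erase hy)]
    simp only [Option.some.injEq]
  rw [← e1]
  split_ifs with h
  · omega
  · omega

/-! ### The vanishing -/

lemma lterm_zero' {s : Q.Fn (Option N)} {G : Gr V E N} {v : V}
    (h : ∀ K c, K.sum + c = (G.dec v).2.sum → sg s (G.addLeg v K c) = 0) : lterm s G v = 0 := by
  unfold lterm
  rw [h _ _ (by simp), zero_sub, neg_eq_zero]
  apply Multiset.sum_eq_zero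
  intro x hx
  rw [Multiset.mem_map] at hx
  obtain ⟨k, hk, rfl⟩ := hx
  exact h _ _ (erase_sum hk)

lemma pb_zero' {s : Q.Fn (Option N)} {G : Gr V E N}
    (h1 : ∀ v K c, K.sum + c = (G.dec v).2.sum → sg s (G.addLeg v K c) = 0)
    (h2 : ∀ z, (G.hf z).2 ≠ 0 → sg s (G.bubble z) = 0) : pb s V E G.dec G.hf = 0 := by
  rw [pb_eq', finsum_eq_zero_of_forall_eq_zero fun v => lterm_zero' (h1 v),
    finsum_eq_zero_of_forall_eq_zero, sub_zero]
  intro z
  rw [finsum_eq_if]
  split_ifs with hz
  · exact h2 z hz
  · rfl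

lemma pull_ne {g d : ℕ} {s : Q.Fn (Option N)} {G : Gr V E N} (h : sg (Q.pull g d s) G ≠ 0) :
    (∃ v K c, K.sum + c = (G.dec v).2.sum ∧ sg s (G.addLeg v K c) ≠ 0) ∨
      ∃ z, (G.hf z).2 ≠ 0 ∧ sg s (G.bubble z) ≠ 0 := by
  by_contra hcon
  push Not at hcon
  apply h
  by_cases hst : Q.Stab G.dec G.hf g d
  · unfold sg
    rw [pull_eq g d s _ _ hst]
    exact pb_zero' (fun v K c hK => hcon.1 v K c hK) (fun z hz => hcon.2 z hz)
  · exact pull_eq_zero s hst

/-- A vertex with a decoration of too large degree. -/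
lemma exists_bad {G : Gr V E N} {g d : ℕ} (h1 : Q.Stab G.dec G.hf g d)
    (h2 : ¬ Q.Valid G.dec G.hf g d) : ∃ v, 3 * (G.dec v).1 + G.nv v < ddg G v + 3 ∧
      2 < 2 * (G.dec v).1 + G.nv v := by
  unfold Q.Valid at h2
  rw [not_and] at h2
  have h3 := h2 h1
  push Not at h3
  obtain ⟨v, hv⟩ := h3
  exact ⟨v, hv, h1.2.2.2.2.2.1 v⟩

lemma one_le {s : Q.Fn X} (hT : Q.Tr 2 9 s) (hS : SPp s) {H : Gr V E X} (hH : sg s H ≠ 0) (v : V)
    (hg : (H.dec v).1 = 1) : ddg H v + 2 ≤ H.nv v := by
  have hval : Q.Valid H.dec H.hf 2 9 := by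
    by_contra h
    exact hH (hT.1 _ _ _ _ h)
  have hEf : Finite E := hval.1.2.1
  obtain ⟨-, k, k0, k1, k2, -⟩ := hS V E H hH v
  have h1 : ne H v ≠ 0 := by
    intro h
    have := ne_zero_genus hval v h
    omega
  omega

lemma zero_eq {s : Q.Fn X} (hS : SPp s) {H : Gr V E X} (hH : sg s H ≠ 0) (v : V)
    (hg : (H.dec v).1 = 0) : ddg H v = 0 := by
  obtain ⟨-, k, k0, k1, k2, k3⟩ := hS V E H hH v
  rw [k3 hg, hg] at k2
  omega

lemma le_one {s : Q.Fn X} (hS : SPp s) {H : Gr V E X} (hH : sg s H ≠ 0) (v : V) :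
    (H.dec v).1 ≤ 1 := (hS V E H hH v).1

lemma addLeg_gen (G : Gr V E L) (w : V) (K : Multiset ℕ) (c : ℕ) (v : V) :
    ((G.addLeg w K c).dec v).1 = (G.dec v).1 := by
  by_cases h : v = w
  · subst h; rw [addLeg_dec_self]
  · rw [addLeg_dec_ne _ h]

lemma nv_addLeg_le [Finite E] [Finite L] (G : Gr V E L) (w : V) (K : Multiset ℕ) (c : ℕ) (v : V) :
    (G.addLeg w K c).nv v ≤ G.nv v + 1 := by
  rw [nv_addLeg]
  split_ifs <;> omega

lemma nv_addLeg_pair [Finite E] [Finite L] (G : Gr V E L) (w : V) (K : Multiset ℕ) (c : ℕ)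
    {u v : V} (huv : u ≠ v) :
    (G.addLeg w K c).nv u + (G.addLeg w K c).nv v ≤ G.nv u + G.nv v + 1 := by
  rw [nv_addLeg, nv_addLeg]
  split_ifs with h1 h2
  · exact absurd (h1.symm.trans h2) huv
  all_goals omega

/-- The first pullback. -/
theorem hv1 [Finite N] {s : Q.Fn (Option N)} (hT : Q.Tr 2 9 s) (hS : SPp s) (hB : BRp s)
    (G : Gr V E N) (h1 : Q.Stab G.dec G.hf 2 9) (h2 : ¬ Q.Valid G.dec G.hf 2 9) :
    pb s V E G.dec G.hf = 0 := by
  have hVf : Finite V := h1.1
  have hEf : Finite E := h1.2.1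
  obtain ⟨v0, hbad, hstab⟩ := exists_bad h1 h2
  refine pb_zero' ?_ ?_
  · intro w K c hK
    by_contra hH
    have k1 := le_one hS hH v0
    rw [addLeg_gen] at k1
    have k2 := ddg_addLeg G w K c hK v0
    have k3 := nv_addLeg_le G w K c v0
    rcases Nat.lt_or_ge (G.dec v0).1 1 with h | h
    · have k5 := zero_eq hS hH v0 (by rw [addLeg_gen]; omega)
      omega
    · have k5 := one_le hT hS hH v0 (by rw [addLeg_gen]; omega)
      omega
  · intro z hz
    by_contra hH
    have k1 := le_one hS hH (some v0)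
    have e0 : (G.bubble z).dec (some v0) = G.dec v0 := rfl
    rw [e0] at k1
    have k2 := ddg_bubble G z hz v0
    have k3 := nv_bubble G z v0
    rcases Nat.lt_or_ge (G.dec v0).1 1 with h | h
    · have k5 := zero_eq hS hH (some v0) (by rw [e0]; omega)
      by_cases hzv : (G.hf z).1 = v0
      · rw [if_pos hzv] at k2
        refine two_false hT hS hB (G.bubble z) hH (u := some v0) (v := none) (by simp)
          (by rw [e0]; omega) rfl none false ?_ rfl ?_
        · rw [bubble_new_false, hzv]
        · rw [k3, nv_bubble_none]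
          omega
      · rw [if_neg hzv] at k2
        omega
    · have k5 := one_le hT hS hH (some v0) (by rw [e0]; omega)
      split_ifs at k2 <;> omega

/-- The second pullback. -/
theorem hv2 [Finite N] {s : Q.Fn (Option (Option N))} (hT : Q.Tr 2 9 s) (hS : SPp s) (hB : BRp s)
    (G : Gr V E N) (h1 : Q.Stab G.dec G.hf 2 9) (h2 : ¬ Q.Valid G.dec G.hf 2 9) :
    pb (Q.pull 2 9 s) V E G.dec G.hf = 0 := by
  have hVf : Finite V := h1.1
  have hEf : Finite E := h1.2.1
  obtain ⟨v0, hbad, hstab⟩ := exists_bad h1 h2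
  refine pb_zero' ?_ ?_
  · intro w K c hK
    by_contra hH
    have k2 := ddg_addLeg G w K c hK v0
    have k3 := nv_addLeg_le G w K c v0
    rcases pull_ne hH with ⟨w', K', c', hK', hH'⟩ | ⟨z, hz, hH'⟩
    · have k1 := le_one hS hH' v0
      rw [addLeg_gen, addLeg_gen] at k1
      have k2' := ddg_addLeg (G.addLeg w K c) w' K' c' hK' v0
      have k3' := nv_addLeg_le (G.addLeg w K c) w' K' c' v0
      rcases Nat.lt_or_ge (G.dec v0).1 1 with h | h
      · have k5 := zero_eq hS hH' v0 (by rw [addLeg_gen, addLeg_gen]; omega)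
        omega
      · have k5 := one_le hT hS hH' v0 (by rw [addLeg_gen, addLeg_gen]; omega)
        omega
    · have k1 := le_one hS hH' (some v0)
      have e0 : ((G.addLeg w K c).bubble z).dec (some v0) = (G.addLeg w K c).dec v0 := rfl
      rw [e0, addLeg_gen] at k1
      have k2' := ddg_bubble (G.addLeg w K c) z hz v0
      have k3' := nv_bubble (G.addLeg w K c) z v0
      rcases Nat.lt_or_ge (G.dec v0).1 1 with h | h
      · have k5 := zero_eq hS hH' (some v0) (by rw [e0, addLeg_gen]; omega)
        by_cases hzv : ((G.addLeg w K c).hf z).1 = v0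
        · rw [if_pos hzv] at k2'
          refine two_false hT hS hB _ hH' (u := some v0) (v := none) (by simp)
            (by rw [e0, addLeg_gen]; omega) rfl none false ?_ rfl ?_
          · rw [bubble_new_false, hzv]
          · rw [k3', nv_bubble_none]
            omega
        · rw [if_neg hzv] at k2'
          omega
      · have k5 := one_le hT hS hH' (some v0) (by rw [e0, addLeg_gen]; omega)
        split_ifs at k2' <;> omega
  · intro z hz
    by_contra hH
    have k2 := ddg_bubble G z hz v0
    have k3 := nv_bubble G z v0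
    have e0 : (G.bubble z).dec (some v0) = G.dec v0 := rfl
    rcases pull_ne hH with ⟨w', K', c', hK', hH'⟩ | ⟨z', hz', hH'⟩
    · have k1 := le_one hS hH' (some v0)
      rw [addLeg_gen, e0] at k1
      have k2' := ddg_addLeg (G.bubble z) w' K' c' hK' (some v0)
      have k3' := nv_addLeg_le (G.bubble z) w' K' c' (some v0)
      have k3'' := nv_addLeg_pair (G.bubble z) w' K' c' (u := some v0) (v := none) (by simp)
      rw [nv_bubble_none] at k3''
      rcases Nat.lt_or_ge (G.dec v0).1 1 with h | h
      · have k5 := zero_eq hS hH' (some v0) (by rw [addLeg_gen, e0]; omega)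
        by_cases hzv : (G.hf z).1 = v0
        · rw [if_pos hzv] at k2
          refine two_false hT hS hB _ hH' (u := some v0) (v := none) (by simp)
            (by rw [addLeg_gen, e0]; omega) (by rw [addLeg_gen]; rfl) none false ?_ rfl ?_
          · change ((G.bubble z).hf (inl (none, false))).1 = some v0
            rw [bubble_new_false, hzv]
          · omega
        · rw [if_neg hzv] at k2
          omega
      · have k5 := one_le hT hS hH' (some v0) (by rw [addLeg_gen, e0]; omega)
        split_ifs at k2 <;> omega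
    · have k1 := le_one hS hH' (some (some v0))
      have e1 : ((G.bubble z).bubble z').dec (some (some v0)) = G.dec v0 := rfl
      rw [e1] at k1
      have k2' := ddg_bubble (G.bubble z) z' hz' (some v0)
      have k3' := nv_bubble (G.bubble z) z' (some v0)
      have k3'' := nv_bubble (G.bubble z) z' none
      rw [nv_bubble_none] at k3''
      rcases Nat.lt_or_ge (G.dec v0).1 1 with h | h
      · have k5 := zero_eq hS hH' (some (some v0)) (by rw [e1]; omega)
        by_cases hzv' : ((G.bubble z).hf z').1 = some v0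
        · rw [if_pos hzv'] at k2'
          refine two_false hT hS hB _ hH' (u := some (some v0)) (v := none) (by simp)
            (by rw [e1]; omega) rfl none false ?_ rfl ?_
          · rw [bubble_new_false, hzv']
          · rw [k3', nv_bubble_none]
            split_ifs at k2 <;> omega
        · rw [if_neg hzv'] at k2'
          by_cases hzv : (G.hf z).1 = v0
          · rw [if_pos hzv] at k2
            refine two_false hT hS hB _ hH' (u := some (some v0)) (v := some none) (by simp)
              (by rw [e1]; omega) rfl (some none) false ?_ ?_ ?_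
            · have : ((G.bubble z).bubble z').hf (oldf (inl (none, false))) =
                  bubold (G.bubble z) z' (inl (none, false)) := bubble_old _ _ _
              change (((G.bubble z).bubble z').hf (oldf (inl (none, false)))).1 = _
              rw [this, bubold, if_neg]
              · rw [bubble_new_false, hzv]
              · intro h'
                apply hzv'
                rw [← h', bubble_new_false, hzv]
            · have : ((G.bubble z).bubble z').hf (oldf (inl (none, true))) =
                  bubold (G.bubble z) z' (inl (none, true)) := bubble_old _ _ _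
              change (((G.bubble z).bubble z').hf (oldf (inl (none, true)))).1 = _
              rw [this, bubold, if_neg]
              · rfl
              · intro h'
                apply hz'
                rw [← h']
                rfl
            · omega
          · rw [if_neg hzv] at k2
            omega
      · have k5 := one_le hT hS hH' (some (some v0)) (by rw [e1]; omega)
        split_ifs at k2 k2' <;> omega

end Vale.Agent.P273.D14.Mv
end
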