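import Vale.Agent.P273.D14.H593.FF
import Vale.Agent.P273.D14.H593.Hv
import Vale.Agent.P273.D14.H387.GBR

/-!
The functional with 14 legs satisfies Pixton's relations if the functional with 16 legs does.
-/

noncomputable section
namespace Vale.Agent.P273.D14
open Sum Vale.Agent.P273 Mv
open scoped Classical

variable {V E V' E' L M N N' X R T : Type}

/-! ### Relabelling the legs -/

/-- The graph with relabelled legs. -/
def rg (ε : N ≃ N') (H : Gr V E N) : Gr V E N' := ⟨H.dec, fun y => H.hf (y.map id ε.symm)⟩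

lemma sg_rb (ε : N ≃ N') (s : Q.Fn N') (H : Gr V E N) :
    Mv.sg (rb ε s) H = Mv.sg s (rg ε H) := rfl

lemma nv_rg (ε : N ≃ N') (H : Gr V E N) (v : V) : (rg ε H).nv v = H.nv v :=
  nv_relab H.hf ε.symm v

lemma ne_rg (ε : N ≃ N') (H : Gr V E N) (v : V) : ne (rg ε H) v = ne H v := rfl

lemma ddg_rg (ε : N ≃ N') (H : Gr V E N) (v : V) : ddg (rg ε H) v = ddg H v := by
  unfold ddg
  congr 1
  have h := finsum_comp_equiv (Equiv.sumCongr (Equiv.refl (E × Bool)) ε.symm)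
    (f := fun y => ∑ᶠ (_ : (H.hf y).1 = v), (H.hf y).2)
  rw [← h]
  rfl

lemma spp_rb (ε : N ≃ N') {s : Q.Fn N'} (hs : SPp s) : SPp (rb ε s) := by
  intro V E H hH v
  obtain ⟨h1, k, h2, h3, h4, h5⟩ := hs V E (rg ε H) hH v
  rw [nv_rg, ne_rg] at h3
  rw [ddg_rg] at h4
  exact ⟨h1, k, h2, h3, h4, h5⟩

lemma brp_rb (ε : N ≃ N') {s : Q.Fn N'} (hs : BRp s) : BRp (rb ε s) := by
  intro V E H t b S h1 h2 h3 hH
  obtain ⟨v, h4, h5, h6⟩ := hs V E (rg ε H) t b S h1 h2 h3 hH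
  rw [nv_rg] at h6
  exact ⟨v, h4, h5, h6⟩

lemma pix_rb (ε : N ≃ N') {s : Q.Fn N'} {g d : ℕ} (hs : Q.Pix g d s) : Q.Pix g d (rb ε s) := by
  rw [pix_iff] at hs ⊢
  refine ⟨tr_rb ε hs.1, ?_⟩
  intro R T L r u b A γ e hR hT hL hu hA hlt
  have h := rl_rb ε s r (fun y => u (y.map id ε.symm)) b A γ e
  have h2 : (fun y : (T × Bool) ⊕ N => u ((y.map id ε).map id ε.symm)) = u := by
    funext y
    rcases y with y | y <;> simp
  simp only [h2] at h
  rw [h]
  refine hs.2 R T L r _ b A γ e hR hT hL ?_ hA hlt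
  intro y z x hy hz
  have := hu _ _ x hy hz
  have hinj : Function.Injective (fun y : (T × Bool) ⊕ N' => (y.map id ε.symm : (T × Bool) ⊕ N)) :=
    (Equiv.sumCongr (Equiv.refl (T × Bool)) ε.symm).injective
  exact hinj this

/-- The functional with 14 legs satisfies Pixton's relations. -/
theorem pix_FF {s : Q.Fn (Fin 8 × Bool)} (hs : Q.Pix 2 9 s) (hS : SPp s) (hB : BRp s) :
    Q.Pix 2 9 (FF s) := by
  have h0 : Q.Pix 2 9 (GG s) := pix_rb ep16 hs
  have h1 : SPp (GG s) := spp_rb ep16 hS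
  have h2 : BRp (GG s) := brp_rb ep16 hB
  have h3 : Q.Pix 2 9 (Q.pull 2 9 (GG s)) := pix_pull (by omega) h0
    fun V E G k1 k2 => hv1 h0.1 h1 h2 G k1 k2
  exact pix_pull (by omega) h3 fun V E G k1 k2 => hv2 h0.1 h1 h2 G k1 k2

/-! ### The conditions for `G` -/

/-- The legs of the two colours. -/
def legsEquiv (P : Fin 8 × Bool → Prop) :
    {x // P x} ≃ {i // P (i, true)} ⊕ {i // P (i, false)} where
  toFun
    | ⟨(i, true), h⟩ => inl ⟨i, h⟩
    | ⟨(i, false), h⟩ => inr ⟨i, h⟩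
  invFun
    | inl ⟨i, h⟩ => ⟨(i, true), h⟩
    | inr ⟨i, h⟩ => ⟨(i, false), h⟩
  left_inv := by rintro ⟨⟨i, _ | _⟩, h⟩ <;> rfl
  right_inv := by rintro (⟨i, h⟩ | ⟨i, h⟩) <;> rfl

lemma nv_eq_nl [Finite E] (f : (E × Bool) ⊕ H387.LL → V × ℕ) (v : V) :
    Q.nv f v = Nat.card {y : E × Bool // (f (inl y)).1 = v} + H387.nl f true v +
      H387.nl f false v := by
  unfold Q.nv H387.nl
  have e1 : Nat.card {y // (f y).1 = v} = Nat.card {y : E × Bool // (f (inl y)).1 = v} +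
      Nat.card {x : H387.LL // (f (inr x)).1 = v} := by
    rw [← Nat.card_sum]
    exact Nat.card_congr Equiv.subtypeSum
  have e2 : Nat.card {x : H387.LL // (f (inr x)).1 = v} =
      Nat.card {i : Fin 8 // (f (inr (i, true))).1 = v} +
      Nat.card {i : Fin 8 // (f (inr (i, false))).1 = v} := by
    rw [← Nat.card_sum]
    exact Nat.card_congr (legsEquiv fun x => (f (inr x)).1 = v)
  rw [e1, e2]
  omega

lemma dd_rational {φ : H387.Und} {a : V → ℕ × Multiset ℕ} {f : (E × Bool) ⊕ H387.LL → V × ℕ}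
    (h : H387.G φ V E a f ≠ 0) (v : V) (hv : (a v).1 = 0) : H387.dd a f v = 0 := by
  have hval : Q.Valid a f 2 9 := by
    by_contra h1
    exact h (H387.G_invalid h1)
  have h0 : H387.G0 φ (H387.rz a) f ≠ 0 := by
    intro h1
    rw [H387.G_of_valid hval, h1, mul_zero] at h
    exact h rfl
  have hgen : ∀ w, (H387.rz a w).1 = (a w).1 := fun w => rfl
  rcases H387.G0_ne h0 with ⟨h1, -⟩ | ⟨w, h1, -⟩
  · refine H387.dd_zero ?_ fun y hy => absurd (h1.2 y) hy
    rw [← H387.rz_sum, h1.1 v]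
    rfl
  · have hne : v ≠ w := by
      rintro rfl
      have := h1.1
      rw [hgen] at this
      omega
    refine H387.dd_zero ?_ fun y hy h2 => hne (h2.symm.trans (h1.2.2 y hy))
    rw [← H387.rz_sum, h1.2.1 v hne]
    rfl

theorem spp_G (φ : H387.Und) : SPp (H387.G φ) := by
  intro V E H hH v
  have hval : Q.Valid H.dec H.hf 2 9 := by
    by_contra h1
    exact hH (H387.G_invalid h1)
  have hEf : Finite E := hval.1.2.1
  obtain ⟨h1, h2, h3, h4⟩ := H387.sp_G hH v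
  refine ⟨h4, H387.nl H.hf true v, h1, ?_, h3, ?_⟩
  · have := nv_eq_nl H.hf v
    change H.nv v = _ at this
    rw [this, h2]
    unfold ne
    omega
  · intro h5
    have h6 := dd_rational hH v h5
    omega

theorem brp_G {φ : H387.Und} (hφ : φ.Br) : BRp (H387.G φ) := by
  intro V E H t b S h1 h2 h3 hH
  obtain ⟨v, b', -, -, h4, h5, h6, -⟩ := H387.br_G hφ h1 h2 h3 hH
  exact ⟨v, h4, congrArg Prod.fst h5, h6⟩

/-- The functional with 14 legs satisfies Pixton's relations. -/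
theorem pix_FG {φ : H387.Und} (hφ : φ.Br) (hs : Q.Pix 2 9 (H387.G φ)) :
    Q.Pix 2 9 (FF (H387.G φ)) := pix_FF hs (spp_G φ) (brp_G hφ)

end Vale.Agent.P273.D14
end
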