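import Vale.Agent.P273.D14.H593.NumMain

/-! The theta graphs are valid graphs of genus `2` and degree `9`. -/

noncomputable section

namespace Vale.Agent.P273.Num

open Sum Vale.Agent.P273.Q
open scoped Nat

theorem hv_surj : ∀ p q : Fin 7, p ≤ q → ∀ t : Fin 7, ∃ y : (Fin 3 ⊕ Fin 6) × Bool,
    hv p q y = some t := by
  decide

theorem th_nv (p q : ℕ) (hp : p ≤ q) (hq : q ≤ 6) (σ : Bool → Equiv.Perm (Fin 7))
    (v : Option (Fin 7)) : 3 ≤ nv (th p q σ) v := by
  rcases v with _ | t
  · have : Nat.card (Fin 3) ≤ Nat.card {y // (th p q σ y).1 = none} := by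
      refine Nat.card_le_card_of_injective (fun r => ⟨inl (inl r, true), rfl⟩) ?_
      intro r r' h
      have h2 := congrArg Subtype.val h
      simpa using h2
    rwa [Nat.card_eq_fintype_card, Fintype.card_fin] at this
  · obtain ⟨z₁, z₂, hz, hz₁, hz₂⟩ := hv_two ⟨p, by omega⟩ ⟨q, by omega⟩ hp t
    have : 4 ≤ nv (th p q σ) (some t) := by
      refine four_le _ (inl z₁) (inl z₂) (inr ((σ true).symm t, true))
        (inr ((σ false).symm t, false)) ?_ ?_ ?_ ?_ ?_ (by simp) (by simp) (by simp)
        (by simp) (by simp)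
      · rw [th_inl]; exact hz₁
      · rw [th_inl]; exact hz₂
      · change some (σ true ((σ true).symm t)) = some t
        rw [Equiv.apply_symm_apply]
      · change some (σ false ((σ false).symm t)) = some t
        rw [Equiv.apply_symm_apply]
      · simpa using hz
    omega

theorem th_valid (p q : ℕ) (hp : p ≤ q) (hq : q ≤ 6) (σ : Bool → Equiv.Perm (Fin 7)) :
    Valid und (th p q σ) 2 9 := by
  have h0 : ∀ y, (th p q σ y).2 = 0 := th_snd p q σ
  refine ⟨⟨inferInstance, inferInstance, inferInstance, ?_, ?_, ?_, ?_⟩, ?_⟩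
  · intro s hs
    have h := connu' p q hp hq (· ∈ s) (by
      intro e
      have := hs e
      rwa [th_inl, th_inl] at this)
    have h2 : ∀ v, v ∈ s ↔ none ∈ s := by
      intro v
      rcases v with _ | t
      · exact Iff.rfl
      · obtain ⟨⟨e, b⟩, hy⟩ := hv_surj ⟨p, by omega⟩ ⟨q, by omega⟩ hp t
        rw [← h e b]
        have hy' : hv p q (e, b) = some t := hy
        rw [hy']
    by_cases hn : none ∈ s
    · right
      ext v
      simp [h2 v, hn]
    · left
      ext v
      simp [h2 v, hn]
  · simp [und]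
  · intro v
    have := th_nv p q hp hq σ v
    simp only [und]
    omega
  · simp [und, h0]
  · intro v
    have := th_nv p q hp hq σ v
    simp only [und, h0]
    simpa using this

end Vale.Agent.P273.Num
end
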