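import Vale.Agent.P273.D14.H593.PixPull

/-!
The functional with 14 legs obtained from a functional with 16 legs by the duals of two forgetful
pullbacks (forgetting the legs `(7, false)` and `(7, true)`).
-/

noncomputable section
namespace Vale.Agent.P273.D14
open Sum Vale.Agent.P273
open scoped Classical

/-- The legs of the large graphs: `none` is `B 7`, `some none` is `A 7`. -/
def ep16 : Option (Option (Fin 7 × Bool)) ≃ Fin 8 × Bool where
  toFun y := y.elim (7, false) fun y => y.elim (7, true) fun x => (x.1.castSucc, x.2)
  invFun x := if h : x.1.1 < 7 then some (some (⟨x.1.1, h⟩, x.2)) else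
    if x.2 then some none else none
  left_inv := by
    rintro (_ | _ | ⟨i, b⟩)
    · rfl
    · rfl
    · simp
  right_inv := by
    rintro ⟨i, b⟩
    by_cases h : i.1 < 7
    · simp only [h, dite_true]
      rfl
    · have h7 : i = 7 := Fin.ext (by change i.1 = 7; omega)
      subst h7
      cases b <;> rfl

@[simp] lemma ep16_none : ep16 none = (7, false) := rfl
@[simp] lemma ep16_some_none : ep16 (some none) = (7, true) := rfl
@[simp] lemma ep16_some (x : Fin 7 × Bool) : ep16 (some (some x)) = (x.1.castSucc, x.2) := rfl

/-- The functional with 16 legs, with the names of the legs adapted to the pullbacks. -/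
def GG (s : Q.Fn (Fin 8 × Bool)) : Q.Fn (Option (Option (Fin 7 × Bool))) := Mv.rb ep16 s

/-- The functional with 14 legs. -/
def FF (s : Q.Fn (Fin 8 × Bool)) : Q.Fn (Fin 7 × Bool) := Q.pull 2 9 (Q.pull 2 9 (GG s))

end Vale.Agent.P273.D14
end
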