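import Vale.Agent.P273.D14.H593.NumMain2
import Vale.Agent.P273.D14.H599.String

/-! The discriminant combination of theta graphs is numerically trivial. -/

noncomputable section

namespace Vale.Agent.P273.Num

open Sum Vale.Agent.P273.Q
open scoped Classical Nat

variable {V' E' : Type}

/-- The discriminant combination of theta graphs has intersection number zero with every decorated
graph of degree `8`. -/
theorem num_zero (a' : V' → ℕ × Multiset ℕ) (f' : (E' × Bool) ⊕ (Fin 7 × Bool) → V' × ℕ)
    (hv : Valid a' f' 2 8) (hk : ∀ v, 0 ∉ (a' v).2) :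
    ∑ q ∈ Finset.range 7, ∑ p ∈ Finset.range (q + 1), (disc p (q - p) (6 - q) : ℚ) *
      ∑ σ, sg σ * pair und (th p q σ) a' f' = 0 :=
  main_of_string (fun f f' x hf hf' h1 h2 hb => string f f' x hf hf' h1 h2 hb) a' f' hv hk

end Vale.Agent.P273.Num
end
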