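import Vale.Agent.P273.D14.H593.NumExt

/-! Package A: relabelling the legs; antisymmetry. -/

noncomputable section

namespace Vale.Agent.P273.Num

open Sum Vale.Agent.P273.Q
open scoped Classical Nat

variable {V E V' E' W D L : Type}

/-- Relabelling the legs. -/
def relg {L : Type} (E : Type) (τ : L ≃ L) : ((E × Bool) ⊕ L) → ((E × Bool) ⊕ L) := Sum.map id τ

variable {k : ℕ} {a : V → ℕ × Multiset ℕ} {f : (E × Bool) ⊕ L → V × ℕ}
  {a' : V' → ℕ × Multiset ℕ} {f' : (E' × Bool) ⊕ L → V' × ℕ}

def relab (τ : L ≃ L) (S : Dgn k a f a' f') :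
    Dgn k a (fun y => f (relg E τ y)) a' (fun y => f' (relg E' τ y)) where
  g := S.g
  h y := S.h (relg E τ y)
  h' := S.h'
  p := S.p
  p' := S.p'
  M := S.M
  J := S.J
  c := S.c
  c' := S.c'
  M_inj := S.M_inj
  J_inj := S.J_inj
  h_M := S.h_M
  p_J := S.p_J
  c_h _ := S.c_h _
  c_p := S.c_p
  c'_h _ := S.c'_h _
  c'_h' := S.c'_h'
  c'_p' := S.c'_p'
  contr := S.contr
  contr' := S.contr'

theorem relab_bij (τ : L ≃ L) : Function.Bijective (relab (k := k) (a := a) (f := f) (a' := a')
    (f' := f') τ) := by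
  have hr : ∀ (E : Type) (y : (E × Bool) ⊕ L), relg E τ (relg E τ.symm y) = y := by
    intro E y; rcases y with z | x <;> simp [relg]
  have hr' : ∀ (E : Type) (y : (E × Bool) ⊕ L), relg E τ.symm (relg E τ y) = y := by
    intro E y; rcases y with z | x <;> simp [relg]
  constructor
  · intro S T h
    refine Dgn.ext' (congrArg Dgn.g h :) ?_ (congrArg Dgn.h' h :) (congrArg Dgn.p h :)
      (congrArg Dgn.p' h :) (congrArg Dgn.M h :) (congrArg Dgn.J h :) (congrArg Dgn.c h :)
      (congrArg Dgn.c' h :)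
    have h2 : (fun y => S.h (relg E τ y)) = fun y => T.h (relg E τ y) := congrArg Dgn.h h
    funext y
    have := congrFun h2 (relg E τ.symm y)
    simpa only [hr] using this
  · intro T
    refine ⟨Dgn.mk T.g (fun y => T.h (relg E τ.symm y)) T.h' T.p T.p' T.M T.J T.c T.c' T.M_inj
      T.J_inj T.h_M T.p_J ?_ T.c_p ?_ T.c'_h' T.c'_p' T.contr T.contr', ?_⟩
    · intro y
      rw [T.c_h, hr]
    · intro x
      have := T.c'_h (τ.symm x)
      simpa [relg] using this
    · refine Dgn.ext' rfl ?_ rfl rfl rfl rfl rfl rfl rfl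
      funext y
      change T.h (relg E τ.symm (relg E τ y)) = T.h y
      rw [hr']

theorem relab_wt (τ : L ≃ L) (S : Dgn k a f a' f') : (relab τ S).wt = S.wt := by
  unfold Dgn.wt
  refine congrArg₂ (· * ·) rfl ?_
  refine finsum_congr fun ε => ?_
  refine Finset.prod_congr rfl fun w _ => ?_
  have : (relab τ S).exps ε w = S.exps ε w := by
    unfold Dgn.exps
    refine congrArg₂ (· + ·) (congrArg₂ (· + ·) (congrArg₂ (· + ·) rfl ?_) rfl) rfl
    exact (finsum_comp_equiv τ (f := fun x : L => ∑ᶠ (_ : S.h (inr x) = w),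
      ({(f (inr x)).2 + (f' (inr x)).2} : Multiset ℕ)))
  rw [this]
  rfl

theorem pair_relabel (τ : L ≃ L) (a : V → ℕ × Multiset ℕ) (f : (E × Bool) ⊕ L → V × ℕ)
    (a' : V' → ℕ × Multiset ℕ) (f' : (E' × Bool) ⊕ L → V' × ℕ) :
    pair a (fun y => f (relg E τ y)) a' (fun y => f' (relg E' τ y)) = pair a f a' f' := by
  unfold pair
  refine Finset.sum_congr rfl fun k _ => ?_
  congr 1
  exact (finsum_eq_of_bijective _ (relab_bij τ) fun S => (relab_wt τ S).symm).symm

/-- Permuting the legs of one colour. -/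
def cperm (b : Bool) (τ : Equiv.Perm (Fin 7)) : (Fin 7 × Bool) ≃ (Fin 7 × Bool) where
  toFun x := (if x.2 = b then τ x.1 else x.1, x.2)
  invFun x := (if x.2 = b then τ.symm x.1 else x.1, x.2)
  left_inv x := by
    rcases x with ⟨i, c⟩
    by_cases h : c = b <;> simp [h]
  right_inv x := by
    rcases x with ⟨i, c⟩
    by_cases h : c = b <;> simp [h]

/-- The permutation of the index set of the sum. -/
def upd (b : Bool) (τ : Equiv.Perm (Fin 7)) :
    (Bool → Equiv.Perm (Fin 7)) ≃ (Bool → Equiv.Perm (Fin 7)) where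
  toFun σ c := if c = b then σ c * τ else σ c
  invFun σ c := if c = b then σ c * τ⁻¹ else σ c
  left_inv σ := by
    funext c
    by_cases h : c = b <;> simp [h]
  right_inv σ := by
    funext c
    by_cases h : c = b <;> simp [h]

theorem th_cperm (p q : ℕ) (σ : Bool → Equiv.Perm (Fin 7)) (b : Bool) (τ : Equiv.Perm (Fin 7))
    (y : ((Fin 3 ⊕ Fin 6) × Bool) ⊕ (Fin 7 × Bool)) :
    th p q σ (relg _ (cperm b τ) y) = th p q (upd b τ σ) y := by
  rcases y with ⟨e, s⟩ | ⟨i, c⟩
  · rcases e with e | e <;> cases s <;> rfl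
  · by_cases h : c = b
    · subst h; simp [th, relg, cperm, upd]
    · simp [th, relg, cperm, upd, h]

theorem sg_upd (b : Bool) (τ : Equiv.Perm (Fin 7)) (σ : Bool → Equiv.Perm (Fin 7)) :
    sg (upd b τ σ) = (Equiv.Perm.sign τ : ℤ) * sg σ := by
  unfold sg
  cases b <;> simp [upd, Equiv.Perm.sign_mul] <;> ring

/-- Two legs of the same colour at the same place of the second graph: antisymmetry. -/
theorem antisym (p q : ℕ) (a' : V' → ℕ × Multiset ℕ) (f' : (E' × Bool) ⊕ (Fin 7 × Bool) → V' × ℕ)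
    (i j : Fin 7) (b : Bool) (hij : i ≠ j) (h : f' (inr (i, b)) = f' (inr (j, b))) :
    ∑ σ, sg σ * pair und (th p q σ) a' f' = 0 := by
  let τ := Equiv.swap i j
  have h1 : (fun y => f' (relg E' (cperm b τ) y)) = f' := by
    funext y
    rcases y with z | ⟨l, c⟩
    · rfl
    · by_cases hc : c = b
      · subst hc
        simp only [relg, cperm, Sum.map_inr, Equiv.coe_fn_mk, if_true]
        by_cases hl : l = i
        · subst hl
          rw [Equiv.swap_apply_left]; exact h.symm
        · by_cases hl' : l = j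
          · subst hl'
            rw [Equiv.swap_apply_right]; exact h
          · rw [Equiv.swap_apply_of_ne_of_ne hl hl']
      · simp [relg, cperm, hc]
  have h2 : ∀ σ, pair und (th p q (upd b τ σ)) a' f' = pair und (th p q σ) a' f' := by
    intro σ
    have := pair_relabel (cperm b τ) und (th p q σ) a' f'
    rw [h1] at this
    rw [← this]
    congr 1
    funext y
    exact (th_cperm p q σ b τ y).symm
  have h3 : ∑ σ, sg σ * pair und (th p q σ) a' f' =
      - ∑ σ, sg σ * pair und (th p q σ) a' f' := by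
    conv_lhs => rw [← Equiv.sum_comp (upd b τ)]
    rw [← Finset.sum_neg_distrib]
    refine Finset.sum_congr rfl fun σ _ => ?_
    rw [h2, sg_upd]
    have : Equiv.Perm.sign τ = -1 := Equiv.Perm.sign_swap hij
    rw [this]
    push_cast
    ring
  linarith

end Vale.Agent.P273.Num
end
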