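import Vale.Agent.P273.CDefs

/-!
The intersection pairing of decorated graphs.
Everything here is a definition.
-/

noncomputable section

namespace Vale.Agent.P273.Num

open Sum Vale.Agent.P273.Q
open scoped Classical Nat

/-- `wk g n m` is the intersection number `⟨τ_{d₁} ⋯ τ_{d_n}⟩` on the moduli space of stable curves
of genus `g ≤ 2` with `n` marked points; `m` is the multiset of the `n` psi exponents. It is computed
by the string equation and the dilaton equation from `⟨τ₀³⟩ = 1` (genus `0`), `⟨τ₁⟩ = 1/24`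
(genus `1`), `⟨τ₄⟩ = 1/1152`, `⟨τ₂τ₃⟩ = 29/5760` and `⟨τ₂³⟩ = 7/240` (genus `2`). -/
def wk (g : ℕ) : ℕ → Multiset ℕ → ℚ
  | 0, _ => 0
  | n + 1, m =>
    if g = 0 ∧ m = {0, 0, 0} then 1
    else if g = 1 ∧ m = {1} then 1 / 24
    else if g = 2 ∧ m = {4} then 1 / 1152
    else if g = 2 ∧ m = {2, 3} then 29 / 5760
    else if g = 2 ∧ m = {2, 2, 2} then 7 / 240
    else if 0 ∈ m then
      ((m.erase 0).map fun d => if d = 0 then 0 else wk g n ((d - 1) ::ₘ (m.erase 0).erase d)).sum
    else if 1 ∈ m then (2 * g - 2 + n) * wk g n (m.erase 1)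
    else 0

variable {V E L V' E' W D : Type}

/-- The kappa classes in the decoration of a graph (`κ[μ]` at `v` is the pushforward of
`∏ ψ^(c+1)`, `c ∈ μ`, under the map that forgets one additional marked point for each `c ∈ μ`). -/
abbrev Kap (a : V → ℕ × Multiset ℕ) : Type := (v : V) × ((a v).2 : Multiset ℕ)

/-- A graph with vertices `W` of genus `g` is contracted to a graph with vertices `V` of genus `γ`
by contracting the edges in `D` (attached to `W` by `e`), and `c` is the map on vertices: `c` is
onto, its fibres are connected by the edges in `D`, and the genus of a vertex is the genus of the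
subgraph contracted to it. -/
def Contr (g : W → ℕ) (e : D × Bool → W) (γ : V → ℕ) (c : W → V) : Prop :=
  (∀ d, c (e (d, true)) = c (e (d, false))) ∧
  ∀ v, (∃ w, c w = v) ∧
    (∀ s : Set W, (∀ d, e (d, true) ∈ s ↔ e (d, false) ∈ s) →
      ∀ w w', c w = v → c w' = v → w ∈ s → w' ∈ s) ∧
    ∑ᶠ (w) (_ : c w = v), g w + Nat.card {d // c (e (d, true)) = v} + 1 =
      γ v + Nat.card {w // c w = v}

/-- The common degenerations with `k` vertices of two decorated graphs with the same leg set `L`
that occur in the product of the two classes: the edges come from the edges `E` of the first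
graph and the edges `E'` of the second graph, where an edge of `E` may coincide with one of `E'`. -/
structure Dgn (k : ℕ) (a : V → ℕ × Multiset ℕ) (f : (E × Bool) ⊕ L → V × ℕ)
    (a' : V' → ℕ × Multiset ℕ) (f' : (E' × Bool) ⊕ L → V' × ℕ) where
  /-- The genus of a vertex. -/
  g : Fin k → ℕ
  /-- The vertex of a half-edge that comes from the first graph or of a leg. -/
  h : (E × Bool) ⊕ L → Fin k
  /-- The vertex of a half-edge that comes from the second graph. -/
  h' : E' × Bool → Fin k
  /-- The places of the kappa classes of the first graph. -/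
  p : Kap a → Fin k
  /-- The places of the kappa classes of the second graph. -/
  p' : Kap a' → Fin k
  /-- `M e = some (e', b)` if `e` and `e'` coincide; `b` is `true` if they have opposite sides. -/
  M : E → Option (E' × Bool)
  /-- Which kappa classes coincide. -/
  J : Kap a → Option (Kap a')
  /-- The map on vertices of the contraction to the first graph. -/
  c : Fin k → V
  /-- The map on vertices of the contraction to the second graph. -/
  c' : Fin k → V'
  M_inj : ∀ e₁ e₂ e' b₁ b₂, M e₁ = some (e', b₁) → M e₂ = some (e', b₂) → e₁ = e₂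
  J_inj : ∀ t₁ t₂ t', J t₁ = some t' → J t₂ = some t' → t₁ = t₂
  h_M : ∀ e e' b, M e = some (e', b) → ∀ s, h (inl (e, s)) = h' (e', xor b s)
  p_J : ∀ t t', J t = some t' → p t = p' t'
  c_h : ∀ y, c (h y) = (f y).1
  c_p : ∀ t, c (p t) = t.1
  c'_h : ∀ x, c' (h (inr x)) = (f' (inr x)).1
  c'_h' : ∀ y, c' (h' y) = (f' (inl y)).1
  c'_p' : ∀ t, c' (p' t) = t.1
  contr : Contr g (fun y : {e' : E' // ∀ e b, M e ≠ some (e', b)} × Bool => h' (y.1.1, y.2))
    (fun v => (a v).1) c
  contr' : Contr g (fun y : {e : E // M e = none} × Bool => h (inl (y.1.1, y.2)))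
    (fun v => (a' v).1) c'

namespace Dgn

variable {k : ℕ} {a : V → ℕ × Multiset ℕ} {f : (E × Bool) ⊕ L → V × ℕ}
  {a' : V' → ℕ × Multiset ℕ} {f' : (E' × Bool) ⊕ L → V' × ℕ}

/-- The psi exponents at the vertex `w`; for each common edge `e` there is one more psi class, at
the half-edge `(e, ε e)`. -/
def exps (S : Dgn k a f a' f') (ε : {e // S.M e ≠ none} → Bool) (w : Fin k) : Multiset ℕ :=
  ∑ᶠ (y : E × Bool) (_ : S.h (inl y) = w), {(f (inl y)).2 +
    (S.M y.1).elim 0 (fun e' => (f' (inl (e'.1, xor e'.2 y.2))).2) +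
    if h : S.M y.1 ≠ none then (if ε ⟨y.1, h⟩ = y.2 then 1 else 0) else 0} +
  ∑ᶠ (y : E' × Bool) (_ : S.h' y = w ∧ ∀ e b, S.M e ≠ some (y.1, b)), {(f' (inl y)).2} +
  ∑ᶠ (x : L) (_ : S.h (inr x) = w), {(f (inr x)).2 + (f' (inr x)).2} +
  ∑ᶠ (t : Kap a) (_ : S.p t = w), {t.2.1 + 1 + (S.J t).elim 0 fun t' => t'.2.1} +
  ∑ᶠ (t : Kap a') (_ : S.p' t = w ∧ ∀ t', S.J t' ≠ some t), {t.2.1 + 1}

/-- The contribution of a common degeneration: the integral of the product of the two decorations,
of `-(ψ + ψ')` for each common edge, and of the signs in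
`κ_a κ_b = κ[a, b] - κ[a + b]`. -/
def wt (S : Dgn k a f a' f') : ℚ :=
  (-1) ^ (Nat.card {e // S.M e ≠ none} + Nat.card {t // S.J t ≠ none}) *
    ∑ᶠ ε : {e // S.M e ≠ none} → Bool,
      ∏ w, wk (S.g w) (Multiset.card (S.exps ε w)) (S.exps ε w)

end Dgn

/-- The intersection number of the classes of two decorated graphs with the same leg set, in
complementary degrees: the sum over all isomorphism classes of common degenerations. (A connected
graph has at most one vertex more than it has edges.) -/
def pair (a : V → ℕ × Multiset ℕ) (f : (E × Bool) ⊕ L → V × ℕ)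
    (a' : V' → ℕ × Multiset ℕ) (f' : (E' × Bool) ⊕ L → V' × ℕ) : ℚ :=
  ∑ k ∈ Finset.range (Nat.card E + Nat.card E' + 2), (∑ᶠ S : Dgn k a f a' f', S.wt) / k !

end Vale.Agent.P273.Num
end
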