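import Vale.Agent.P273.D14.H593.NumExt
import Vale.Agent.P273.D14.H789.TC

/-! Package E: redistribution of the edges of a cycle; isomorphisms. -/

noncomputable section

namespace Vale.Agent.P273.Num

open Sum Vale.Agent.P273.Q
open scoped Classical Nat

variable {V E V' E' W D L : Type}

/-- The part of the pairing from the degenerations of type `TC C`. -/
def pairC (C : Set E) (a : V → ℕ × Multiset ℕ) (f : (E × Bool) ⊕ L → V × ℕ)
    (a' : V' → ℕ × Multiset ℕ) (f' : (E' × Bool) ⊕ L → V' × ℕ) : ℚ :=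
  ∑ k ∈ Finset.range (Nat.card E + Nat.card E' + 2),
    (∑ᶠ (S : Dgn k a f a' f') (_ : TC C S), S.wt) / k !

theorem Contr.congr {g : W → ℕ} {e₁ e₂ : D × Bool → W} {γ : V → ℕ} {c : W → V}
    (h : Contr g e₁ γ c)
    (hs : ∀ s : Set W, (∀ d, e₁ (d, true) ∈ s ↔ e₁ (d, false) ∈ s) ↔
      (∀ d, e₂ (d, true) ∈ s ↔ e₂ (d, false) ∈ s))
    (hc : ∀ d, c (e₂ (d, true)) = c (e₁ (d, true))) : Contr g e₂ γ c := by
  have h1 : ∀ d, c (e₂ (d, true)) = c (e₂ (d, false)) := by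
    intro d
    have := (hs {w | c w = c (e₂ (d, true))}).1 (by
      intro d'
      simp only [Set.mem_ofPred_eq, h.1 d'])
    have h2 := (this d).1 rfl
    exact h2.symm
  refine ⟨h1, fun v => ⟨(h.2 v).1, fun s hs' => (h.2 v).2.1 s ((hs s).2 hs'), ?_⟩⟩
  have h3 := (h.2 v).2.2
  have h4 : Nat.card {d // c (e₂ (d, true)) = v} = Nat.card {d // c (e₁ (d, true)) = v} := by
    simp only [hc]
  rw [h4]
  exact h3

section Redist

variable {k : ℕ} {f₁ f₂ : (E × Bool) ⊕ L → V × ℕ} {a' : V' → ℕ × Multiset ℕ}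
    {f' : (E' × Bool) ⊕ L → V' × ℕ}

/-- The data for the redistribution: a permutation of the half-edges. -/
structure RD (C : Set E) (f₁ f₂ : (E × Bool) ⊕ L → V × ℕ) (B : E × Bool ≃ E × Bool) : Prop where
  h1 : ∀ y, (f₁ y).2 = 0
  h2 : ∀ y, (f₂ y).2 = 0
  hL : ∀ x, f₁ (inr x) = f₂ (inr x)
  hB : ∀ z, f₂ (inl (B z)) = f₁ (inl z)
  hC : ∀ z, (B z).1 ∈ C ↔ z.1 ∈ C
  hid : ∀ z, z.1 ∉ C → B z = z
  hc1 : ∀ s : Set V, (∀ e ∈ C, (f₁ (inl (e, true))).1 ∈ s ↔ (f₁ (inl (e, false))).1 ∈ s) →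
      ∀ e ∈ C, ∀ b, ∀ e' ∈ C, ∀ b', (f₁ (inl (e, b))).1 ∈ s → (f₁ (inl (e', b'))).1 ∈ s
  hc2 : ∀ s : Set V, (∀ e ∈ C, (f₂ (inl (e, true))).1 ∈ s ↔ (f₂ (inl (e, false))).1 ∈ s) →
      ∀ e ∈ C, ∀ b, ∀ e' ∈ C, ∀ b', (f₂ (inl (e, b))).1 ∈ s → (f₂ (inl (e', b'))).1 ∈ s

theorem RD.symm {C : Set E} {B : E × Bool ≃ E × Bool} (r : RD C f₁ f₂ B) : RD C f₂ f₁ B.symm where
  h1 := r.h2
  h2 := r.h1
  hL x := (r.hL x).symm
  hB z := by rw [← r.hB]; simp
  hC z := by rw [← r.hC (B.symm z)]; simp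
  hid z hz := by
    have := r.hid z hz
    rw [Equiv.symm_apply_eq]
    exact this.symm
  hc1 := r.hc2
  hc2 := r.hc1

/-- All or none. -/
theorem TC.all {C : Set E} {S : Dgn k und f₁ a' f'} (hS : TC C S)
    (hc1 : ∀ s : Set V, (∀ e ∈ C, (f₁ (inl (e, true))).1 ∈ s ↔ (f₁ (inl (e, false))).1 ∈ s) →
      ∀ e ∈ C, ∀ b, ∀ e' ∈ C, ∀ b', (f₁ (inl (e, b))).1 ∈ s → (f₁ (inl (e', b'))).1 ∈ s)
    (s : Set (Fin k)) (hs : ∀ e ∈ C, S.h (inl (e, true)) ∈ s ↔ S.h (inl (e, false)) ∈ s) :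
    ∀ e ∈ C, ∀ b, ∀ e' ∈ C, ∀ b', S.h (inl (e, b)) ∈ s → S.h (inl (e', b')) ∈ s := by
  intro e he b e' he' b' h
  have key : ∀ e ∈ C, ∀ b, ((f₁ (inl (e, b))).1 ∈ {v | ∃ e₀ ∈ C, ∃ b₀,
      (f₁ (inl (e₀, b₀))).1 = v ∧ S.h (inl (e₀, b₀)) ∈ s} ↔ S.h (inl (e, b)) ∈ s) := by
    intro e he b
    constructor
    · rintro ⟨e₀, he₀, b₀, h1, h2⟩
      rwa [← hS.2 e₀ he₀ b₀ e he b h1]
    · intro h
      exact ⟨e, he, b, rfl, h⟩
  have := hc1 {v | ∃ e₀ ∈ C, ∃ b₀, (f₁ (inl (e₀, b₀))).1 = v ∧ S.h (inl (e₀, b₀)) ∈ s}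
    (fun e he => by rw [key e he, key e he]; exact hs e he) e he b e' he' b' ((key e he b).2 h)
  exact (key e' he' b').1 this

def rd {C : Set E} {B : E × Bool ≃ E × Bool} (r : RD C f₁ f₂ B) (S : Dgn k und f₁ a' f')
    (hS : TC C S) : Dgn k und f₂ a' f' where
  g := S.g
  h := Sum.elim (fun z => S.h (inl (B.symm z))) (fun x => S.h (inr x))
  h' := S.h'
  p := S.p
  p' := S.p'
  M := S.M
  J := S.J
  c := S.c
  c' := S.c'
  M_inj := S.M_inj
  J_inj := S.J_inj
  h_M e e' b he s := by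
    have : e ∉ C := fun h => by rw [hS.1 e h] at he; cases he
    have h2 : B.symm (e, s) = (e, s) := r.symm.hid (e, s) this
    simp only [Sum.elim_inl, h2]
    exact S.h_M e e' b he s
  p_J := S.p_J
  c_h y := by
    rcases y with z | x
    · simp only [Sum.elim_inl, S.c_h, ← r.hB, Equiv.apply_symm_apply]
    · simp only [Sum.elim_inr, S.c_h, r.hL]
  c_p := S.c_p
  c'_h := S.c'_h
  c'_h' := S.c'_h'
  c'_p' := S.c'_p'
  contr := S.contr
  contr' := by
    have hall := hS.all r.hc1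
    have hBC : ∀ e ∈ C, ∀ s, (B.symm (e, s)).1 ∈ C := fun e he s => (r.symm.hC (e, s)).2 he
    -- the h-values of the new half-edges in `C`
    have hinv : ∀ e ∈ C, ∀ b, ∃ e₀ ∈ C, ∃ b₀, B (e, b) = (e₀, b₀) :=
      fun e he b => ⟨(B (e, b)).1, (r.hC (e, b)).2 he, (B (e, b)).2, rfl⟩
    refine S.contr'.congr ?_ ?_
    · intro s
      constructor
      · intro hs d
        by_cases hd : d.1 ∈ C
        · have h1 : ∀ e ∈ C, S.h (inl (e, true)) ∈ s ↔ S.h (inl (e, false)) ∈ s :=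
            fun e he => hs ⟨e, hS.1 e he⟩
          have h2 := hall s h1
          simp only [Sum.elim_inl]
          constructor
          · intro h3
            exact h2 _ (hBC d.1 hd true) (B.symm (d.1, true)).2 _ (hBC d.1 hd false) _ h3
          · intro h3
            exact h2 _ (hBC d.1 hd false) (B.symm (d.1, false)).2 _ (hBC d.1 hd true) _ h3
        · simp only [Sum.elim_inl, r.symm.hid (d.1, true) hd, r.symm.hid (d.1, false) hd]
          exact hs d
      · intro hs d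
        by_cases hd : d.1 ∈ C
        · -- use connectedness of the second graph
          let T : Set V := {v | ∃ e₀ ∈ C, ∃ b₀, (f₂ (inl (e₀, b₀))).1 = v ∧
            S.h (inl (B.symm (e₀, b₀))) ∈ s}
          have key : ∀ e ∈ C, ∀ b, ((f₂ (inl (e, b))).1 ∈ T ↔ S.h (inl (B.symm (e, b))) ∈ s) := by
            intro e he b
            constructor
            · rintro ⟨e₀, he₀, b₀, h1, h2⟩
              have h3 : (f₁ (inl (B.symm (e₀, b₀)))).1 = (f₁ (inl (B.symm (e, b)))).1 := by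
                rw [← r.hB, ← r.hB]; simpa using h1
              have h5 := hS.2 _ (hBC e₀ he₀ b₀) (B.symm (e₀, b₀)).2 _ (hBC e he b)
                (B.symm (e, b)).2 h3
              simp only [Prod.mk.eta] at h5
              rwa [← h5]
            · intro h
              exact ⟨e, he, b, rfl, h⟩
          have h4 := r.hc2 T (fun e he => by
            rw [key e he, key e he]
            exact hs ⟨e, hS.1 e he⟩)
          have h5 : ∀ b b', S.h (inl (d.1, b)) ∈ s → S.h (inl (d.1, b')) ∈ s := by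
            intro b b' h
            have e1 := (key _ ((r.hC (d.1, b)).2 hd) (B (d.1, b)).2)
            have e2 := (key _ ((r.hC (d.1, b')).2 hd) (B (d.1, b')).2)
            simp only [Prod.mk.eta, Equiv.symm_apply_apply] at e1 e2
            have e3 := h4 _ ((r.hC (d.1, b)).2 hd) (B (d.1, b)).2 _ ((r.hC (d.1, b')).2 hd)
              (B (d.1, b')).2
            simp only [Prod.mk.eta] at e3
            exact e2.1 (e3 (e1.2 h))
          exact ⟨h5 true false, h5 false true⟩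
        · have := hs d
          simp only [Sum.elim_inl, r.symm.hid (d.1, true) hd, r.symm.hid (d.1, false) hd] at this
          exact this
    · intro d
      by_cases hd : d.1 ∈ C
      · have h1 : ∀ e ∈ C, S.h (inl (e, true)) ∈ {w | S.c' w = S.c' (S.h (inl (d.1, true)))} ↔
            S.h (inl (e, false)) ∈ {w | S.c' w = S.c' (S.h (inl (d.1, true)))} := by
          intro e he
          have := S.contr'.1 ⟨e, hS.1 e he⟩
          simp only [Set.mem_ofPred_eq] at this ⊢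
          rw [this]
        exact hall _ h1 d.1 hd true _ (hBC d.1 hd true) _ rfl
      · simp only [Sum.elim_inl, r.symm.hid (d.1, true) hd]

theorem rd_TC {C : Set E} {B : E × Bool ≃ E × Bool} (r : RD C f₁ f₂ B) (S : Dgn k und f₁ a' f')
    (hS : TC C S) : TC C (rd r S hS) := by
  refine ⟨hS.1, fun e he s e' he' s' h => ?_⟩
  change S.h (inl (B.symm (e, s))) = S.h (inl (B.symm (e', s')))
  have h3 : (f₁ (inl (B.symm (e, s)))).1 = (f₁ (inl (B.symm (e', s')))).1 := by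
    rw [← r.hB, ← r.hB]; simpa using h
  exact hS.2 _ ((r.symm.hC (e, s)).2 he) (B.symm (e, s)).2 _ ((r.symm.hC (e', s')).2 he')
    (B.symm (e', s')).2 h3

theorem rd_rd {C : Set E} {B : E × Bool ≃ E × Bool} (r : RD C f₁ f₂ B) (S : Dgn k und f₁ a' f')
    (hS : TC C S) (hS' : TC C (rd r S hS)) : rd r.symm (rd r S hS) hS' = S := by
  obtain ⟨g, h, h', p, p', M, J, c, c', _, _, _, _, _, _, _, _, _, _, _⟩ := S
  simp only [rd, Dgn.mk.injEq, and_true, true_and]
  funext y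
  rcases y with z | x <;> simp

theorem rd_exps {C : Set E} {B : E × Bool ≃ E × Bool} (r : RD C f₁ f₂ B) (S : Dgn k und f₁ a' f')
    (hS : TC C S) (ε : {e // S.M e ≠ none} → Bool) (w : Fin k) :
    (rd r S hS).exps ε w = S.exps ε w := by
  unfold Dgn.exps
  refine congrArg₂ (· + ·) (congrArg₂ (· + ·) (congrArg₂ (· + ·) (congrArg₂ (· + ·) ?_ rfl) ?_)
    rfl) rfl
  · -- first sum
    refine (finsum_comp_equiv B (f := fun y : E × Bool => ∑ᶠ (_ : (rd r S hS).h (inl y) = w),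
      ({(f₂ (inl y)).2 + ((rd r S hS).M y.1).elim 0 (fun e' => (f' (inl (e'.1, xor e'.2 y.2))).2) +
      if h : (rd r S hS).M y.1 ≠ none then (if ε ⟨y.1, h⟩ = y.2 then 1 else 0) else 0} :
        Multiset ℕ))).symm.trans ?_
    refine finsum_congr fun z => ?_
    have e1 : (rd r S hS).h (inl (B z)) = S.h (inl z) := by
      change S.h (inl (B.symm (B z))) = _
      rw [Equiv.symm_apply_apply]
    rw [e1]
    refine finsum_congr fun _ => ?_
    by_cases hz : z.1 ∈ C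
    · have hz' := (r.hC z).2 hz
      have m1 : S.M z.1 = none := hS.1 _ hz
      have m2 : (rd r S hS).M (B z).1 = none := hS.1 _ hz'
      simp only [m1, m2, r.h1, r.h2, Option.elim_none, ne_eq, not_true_eq_false, dite_false]
    · rw [r.hid z hz]
      simp only [r.h1, r.h2]
      rfl
  · -- legs
    refine finsum_congr fun x => ?_
    have e1 : (rd r S hS).h (inr x) = S.h (inr x) := rfl
    rw [e1]
    refine finsum_congr fun _ => ?_
    rw [r.h1, r.h2]

theorem rd_wt {C : Set E} {B : E × Bool ≃ E × Bool} (r : RD C f₁ f₂ B) (S : Dgn k und f₁ a' f')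
    (hS : TC C S) : (rd r S hS).wt = S.wt := by
  unfold Dgn.wt
  refine congrArg₂ (· * ·) rfl ?_
  change ∑ᶠ ε : {e // S.M e ≠ none} → Bool, _ = _
  refine finsum_congr fun ε => ?_
  refine Finset.prod_congr rfl fun w _ => ?_
  rw [rd_exps r S hS ε w]
  rfl

theorem redistribute_aux {C : Set E} {B : E × Bool ≃ E × Bool} (r : RD C f₁ f₂ B) (k : ℕ) :
    ∑ᶠ (S : Dgn k und f₁ a' f') (_ : TC C S), S.wt = ∑ᶠ (S : Dgn k und f₂ a' f') (_ : TC C S), S.wt := by
  rw [← finsum_subtype_eq_finsum_cond (p := fun S : Dgn k und f₁ a' f' => TC C S),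
    ← finsum_subtype_eq_finsum_cond (p := fun S : Dgn k und f₂ a' f' => TC C S)]
  refine finsum_eq_of_bijective (fun S => ⟨rd r S.1 S.2, rd_TC r S.1 S.2⟩) ?_ ?_
  · refine Function.bijective_iff_has_inverse.2
      ⟨fun S => ⟨rd r.symm S.1 S.2, rd_TC r.symm S.1 S.2⟩, ?_, ?_⟩
    · intro S
      exact Subtype.ext (rd_rd r S.1 S.2 (rd_TC r S.1 S.2))
    · intro S
      exact Subtype.ext (rd_rd r.symm S.1 S.2 (rd_TC r.symm S.1 S.2))
  · intro S
    exact (rd_wt r S.1 S.2).symm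

end Redist

theorem redistribute [Finite E] (C : Set E) (f₁ f₂ : (E × Bool) ⊕ L → V × ℕ)
    (a' : V' → ℕ × Multiset ℕ) (f' : (E' × Bool) ⊕ L → V' × ℕ)
    (h1 : ∀ y, (f₁ y).2 = 0) (h2 : ∀ y, (f₂ y).2 = 0)
    (hL : ∀ x, f₁ (inr x) = f₂ (inr x)) (hE : ∀ e ∉ C, ∀ s, f₁ (inl (e, s)) = f₂ (inl (e, s)))
    (hW : ∀ v, Nat.card {y : {y : E × Bool // y.1 ∈ C} // (f₁ (inl y.1)).1 = v} =
      Nat.card {y : {y : E × Bool // y.1 ∈ C} // (f₂ (inl y.1)).1 = v})
    (hc1 : ∀ s : Set V, (∀ e ∈ C, (f₁ (inl (e, true))).1 ∈ s ↔ (f₁ (inl (e, false))).1 ∈ s) →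
      ∀ e ∈ C, ∀ b, ∀ e' ∈ C, ∀ b', (f₁ (inl (e, b))).1 ∈ s → (f₁ (inl (e', b'))).1 ∈ s)
    (hc2 : ∀ s : Set V, (∀ e ∈ C, (f₂ (inl (e, true))).1 ∈ s ↔ (f₂ (inl (e, false))).1 ∈ s) →
      ∀ e ∈ C, ∀ b, ∀ e' ∈ C, ∀ b', (f₂ (inl (e, b))).1 ∈ s → (f₂ (inl (e', b'))).1 ∈ s) :
    pairC C und f₁ a' f' = pairC C und f₂ a' f' := by
  let X := {y : E × Bool // y.1 ∈ C}
  have hne : ∀ v, Nonempty ({y : X // (f₁ (inl y.1)).1 = v} ≃ {y : X // (f₂ (inl y.1)).1 = v}) :=
    fun v => by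
      cases nonempty_fintype E
      have := hW v
      rw [Nat.card_eq_fintype_card, Nat.card_eq_fintype_card] at this
      exact ⟨Fintype.equivOfCardEq this⟩
  let β : X ≃ X := (Equiv.sigmaFiberEquiv (fun y : X => (f₁ (inl y.1)).1)).symm.trans
    ((Equiv.sigmaCongrRight fun v => (hne v).some).trans
      (Equiv.sigmaFiberEquiv (fun y : X => (f₂ (inl y.1)).1)))
  have hβ : ∀ z : X, (f₂ (inl (β z).1)).1 = (f₁ (inl z.1)).1 := by
    intro z
    exact ((hne _).some ⟨z, rfl⟩).2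
  let B : E × Bool ≃ E × Bool := Equiv.Perm.ofSubtype (p := fun y : E × Bool => y.1 ∈ C) β
  have hB1 : ∀ z (hz : z.1 ∈ C), B z = (β ⟨z, hz⟩).1 := fun z hz =>
    Equiv.Perm.ofSubtype_apply_of_mem β hz
  have hB2 : ∀ z, z.1 ∉ C → B z = z := fun z hz =>
    Equiv.Perm.ofSubtype_apply_of_not_mem β hz
  have r : RD C f₁ f₂ B :=
    { h1 := h1
      h2 := h2
      hL := hL
      hB := by
        intro z
        by_cases hz : z.1 ∈ C
        · rw [hB1 z hz]
          exact Prod.ext (hβ ⟨z, hz⟩) (by rw [h1, h2])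
        · rw [hB2 z hz, hE z.1 hz]
      hC := by
        intro z
        by_cases hz : z.1 ∈ C
        · rw [hB1 z hz]
          exact ⟨fun _ => hz, fun _ => (β ⟨z, hz⟩).2⟩
        · rw [hB2 z hz]
      hid := hB2
      hc1 := hc1
      hc2 := hc2 }
  unfold pairC
  exact Finset.sum_congr rfl fun k _ => by rw [redistribute_aux r k]

/-! ### Isomorphisms of the first graph -/

section Iso

variable {V₁ E₁ : Type} {k : ℕ} {f : (E × Bool) ⊕ L → V × ℕ} {f₁ : (E₁ × Bool) ⊕ L → V₁ × ℕ}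
  {a' : V' → ℕ × Multiset ℕ} {f' : (E' × Bool) ⊕ L → V' × ℕ}

theorem Contr.map {D₁ : Type} {g : W → ℕ} {e : D × Bool → W} {γ : V → ℕ} {c : W → V}
    (h : Contr g e γ c) (u : V ≃ V₁) (ρ : D ≃ D₁) {e₁ : D₁ × Bool → W} {γ₁ : V₁ → ℕ}
    (he : ∀ d s, e₁ (ρ d, s) = e (d, s)) (hγ : ∀ v, γ₁ (u v) = γ v) :
    Contr g e₁ γ₁ (fun w => u (c w)) := by
  have he' : ∀ d s, e₁ (d, s) = e (ρ.symm d, s) := fun d s => by
    rw [← he, Equiv.apply_symm_apply]
  refine ⟨fun d => ?_, fun v => ⟨?_, ?_, ?_⟩⟩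
  · simp only [he', h.1]
  · obtain ⟨w, hw⟩ := (h.2 (u.symm v)).1
    exact ⟨w, by simp only [hw, Equiv.apply_symm_apply]⟩
  · intro s hs w w' hw hw' hws
    refine (h.2 (u.symm v)).2.1 s (fun d => ?_) w w' ?_ ?_ hws
    · rw [← he, ← he]; exact hs (ρ d)
    · rw [← hw, Equiv.symm_apply_apply]
    · rw [← hw', Equiv.symm_apply_apply]
  · have h3 := (h.2 (u.symm v)).2.2
    have h4 : ∀ w, (u (c w) = v) ↔ (c w = u.symm v) := fun w => by
      rw [Equiv.eq_symm_apply]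
    have h5 : Nat.card {d // u (c (e₁ (d, true))) = v} =
        Nat.card {d // c (e (d, true)) = u.symm v} := by
      refine Nat.card_congr (Equiv.subtypeEquiv ρ.symm fun d => ?_)
      rw [h4, he']
    have h6 : γ₁ v = γ (u.symm v) := by rw [← hγ, Equiv.apply_symm_apply]
    rw [h5, h6]
    simp only [h4]
    exact h3

/-- Transport along an isomorphism of the first graph. -/
def iso (u : V ≃ V₁) (ρ : E ≃ E₁) (hf : ∀ y, f₁ (y.map (Prod.map ρ id) id) = (f y).map u id)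
    (S : Dgn k und f a' f') : Dgn k und f₁ a' f' where
  g := S.g
  h := Sum.elim (fun z => S.h (inl (ρ.symm z.1, z.2))) (fun x => S.h (inr x))
  h' := S.h'
  p t := (Kap_und_elim t).elim
  p' := S.p'
  M e := S.M (ρ.symm e)
  J t := (Kap_und_elim t).elim
  c w := u (S.c w)
  c' := S.c'
  M_inj e₁ e₂ e' b₁ b₂ h1 h2 := ρ.symm.injective (S.M_inj _ _ e' b₁ b₂ h1 h2)
  J_inj t := (Kap_und_elim t).elim
  h_M e e' b he s := S.h_M _ e' b he s
  p_J t := (Kap_und_elim t).elim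
  c_h y := by
    rcases y with z | x
    · have := hf (inl (ρ.symm z.1, z.2))
      simp only [Sum.map_inl, Prod.map_apply, id_eq, Equiv.apply_symm_apply, Prod.mk.eta] at this
      rw [this]
      simp only [Sum.elim_inl, Prod.map_fst, S.c_h]
    · have := hf (inr x)
      simp only [Sum.map_inr, id_eq] at this
      rw [this]
      simp only [Sum.elim_inr, Prod.map_fst, S.c_h]
  c_p t := (Kap_und_elim t).elim
  c'_h x := S.c'_h x
  c'_h' := S.c'_h'
  c'_p' := S.c'_p'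
  contr := by
    refine S.contr.map u (Equiv.subtypeEquivRight (p := fun e' => ∀ e b, S.M e ≠ some (e', b))
      (q := fun e' => ∀ e b, S.M (ρ.symm e) ≠ some (e', b)) fun e' => ?_) ?_ ?_
    · exact ⟨fun h e b => h _ b, fun h e b => by simpa using h (ρ e) b⟩
    · intro d s; rfl
    · intro v; rfl
  contr' := by
    refine S.contr'.map (Equiv.refl V') (D₁ := {e : E₁ // S.M (ρ.symm e) = none})
      (Equiv.subtypeEquiv ρ fun e => by rw [Equiv.symm_apply_apply]) ?_ ?_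
    · intro d s
      simp
    · intro v; rfl

theorem iso_iso (u : V ≃ V₁) (ρ : E ≃ E₁)
    (hf : ∀ y, f₁ (y.map (Prod.map ρ id) id) = (f y).map u id)
    (hf' : ∀ y, f (y.map (Prod.map ρ.symm id) id) = (f₁ y).map u.symm id)
    (S : Dgn k und f a' f') : iso u.symm ρ.symm hf' (iso u ρ hf S) = S := by
  obtain ⟨g, h, h', p, p', M, J, c, c', _, _, _, _, _, _, _, _, _, _, _⟩ := S
  simp only [iso, Dgn.mk.injEq, true_and, Equiv.symm_symm, Equiv.symm_apply_apply, and_true]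
  refine ⟨?_, ?_, ?_⟩
  · funext y
    rcases y with z | x <;> simp
  · funext t; exact (Kap_und_elim t).elim
  · funext t; exact (Kap_und_elim t).elim

theorem iso_wt (u : V ≃ V₁) (ρ : E ≃ E₁)
    (hf : ∀ y, f₁ (y.map (Prod.map ρ id) id) = (f y).map u id)
    (S : Dgn k und f a' f') : (iso u ρ hf S).wt = S.wt := by
  have hsnd : ∀ y, (f₁ (y.map (Prod.map ρ id) id)).2 = (f y).2 := fun y => by rw [hf]; rfl
  unfold Dgn.wt
  have hM : ∀ e, (iso u ρ hf S).M e = S.M (ρ.symm e) := fun _ => rfl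
  let θ : {e // (iso u ρ hf S).M e ≠ none} ≃ {e // S.M e ≠ none} :=
    Equiv.subtypeEquiv ρ.symm fun e => by rw [hM]
  have c1 : Nat.card {e // (iso u ρ hf S).M e ≠ none} = Nat.card {e // S.M e ≠ none} :=
    Nat.card_congr θ
  have c2 : Nat.card {t // (iso u ρ hf S).J t ≠ none} = Nat.card {t // S.J t ≠ none} := by
    have : IsEmpty {t // (iso u ρ hf S).J t ≠ none} := ⟨fun t => Kap_und_elim t.1⟩
    have : IsEmpty {t // S.J t ≠ none} := ⟨fun t => Kap_und_elim t.1⟩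
    simp
  rw [c1, c2]
  refine congrArg₂ (· * ·) rfl ?_
  refine (finsum_comp_equiv (Equiv.arrowCongr θ.symm (Equiv.refl Bool))).symm.trans ?_
  refine finsum_congr fun ε => ?_
  refine Finset.prod_congr rfl fun w _ => ?_
  have : (iso u ρ hf S).exps ((Equiv.arrowCongr θ.symm (Equiv.refl Bool)) ε) w = S.exps ε w := by
    unfold Dgn.exps
    refine congrArg₂ (· + ·) (congrArg₂ (· + ·) (congrArg₂ (· + ·) (congrArg₂ (· + ·) ?_ ?_) ?_)
      ?_) ?_
    · refine (finsum_comp_equiv (Equiv.prodCongr ρ (Equiv.refl Bool))).symm.trans ?_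
      refine finsum_congr fun z => ?_
      have e1 : (iso u ρ hf S).h (inl ((Equiv.prodCongr ρ (Equiv.refl Bool)) z)) = S.h (inl z) := by
        change S.h (inl (ρ.symm (ρ z.1), z.2)) = _
        rw [Equiv.symm_apply_apply]
      rw [e1]
      refine finsum_congr fun _ => ?_
      have e2 : (iso u ρ hf S).M ((Equiv.prodCongr ρ (Equiv.refl Bool)) z).1 = S.M z.1 := by
        change S.M (ρ.symm (ρ z.1)) = _
        rw [Equiv.symm_apply_apply]
      have e3 : (f₁ (inl ((Equiv.prodCongr ρ (Equiv.refl Bool)) z))).2 = (f (inl z)).2 :=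
        hsnd (inl z)
      rw [e3]
      congr 2
      · rw [e2]; rfl
      · by_cases hz : S.M z.1 ≠ none
        · rw [dif_pos hz, dif_pos (by rw [e2]; exact hz)]
          have : θ ⟨((Equiv.prodCongr ρ (Equiv.refl Bool)) z).1, by rw [e2]; exact hz⟩ =
              ⟨z.1, hz⟩ := by
            refine Subtype.ext ?_
            change ρ.symm (ρ z.1) = z.1
            rw [Equiv.symm_apply_apply]
          have h5 : (Equiv.arrowCongr θ.symm (Equiv.refl Bool)) ε
              ⟨((Equiv.prodCongr ρ (Equiv.refl Bool)) z).1, by rw [e2]; exact hz⟩ =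
              ε ⟨z.1, hz⟩ := by
            simp only [Equiv.arrowCongr_apply, Function.comp, Equiv.symm_symm, Equiv.refl_apply,
              this]
          rw [h5]; rfl
        · rw [dif_neg hz, dif_neg (by rw [e2]; exact hz)]
    · refine finsum_congr fun y => ?_
      have : (∀ e b, (iso u ρ hf S).M e ≠ some (y.1, b)) ↔ (∀ e b, S.M e ≠ some (y.1, b)) :=
        ⟨fun h e b => by simpa [hM] using h (ρ e) b, fun h e b => h _ b⟩
      simp only [this]
      rfl
    · refine finsum_congr fun x => ?_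
      have e1 : (iso u ρ hf S).h (inr x) = S.h (inr x) := rfl
      rw [e1]
      refine finsum_congr fun _ => ?_
      rw [show (f₁ (inr x)).2 = (f (inr x)).2 from hsnd (inr x)]
    · rw [finsum_of_isEmpty, finsum_of_isEmpty]
    · refine finsum_congr fun t => ?_
      have : (∀ t', (iso u ρ hf S).J t' ≠ some t) ↔ (∀ t', S.J t' ≠ some t) :=
        ⟨fun _ t' => (Kap_und_elim t').elim, fun _ t' => (Kap_und_elim t').elim⟩
      simp only [this]
      rfl
  rw [this]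
  rfl

theorem iso_TC (u : V ≃ V₁) (ρ : E ≃ E₁)
    (hf : ∀ y, f₁ (y.map (Prod.map ρ id) id) = (f y).map u id)
    {C : Set E} {C₁ : Set E₁} (hC : ∀ e, e ∈ C ↔ ρ e ∈ C₁)
    (S : Dgn k und f a' f') (hS : TC C S) : TC C₁ (iso u ρ hf S) := by
  have hC' : ∀ e, e ∈ C₁ ↔ ρ.symm e ∈ C := fun e => by rw [hC, Equiv.apply_symm_apply]
  refine ⟨fun e he => hS.1 _ ((hC' e).1 he), fun e he s e' he' s' h => ?_⟩
  refine hS.2 _ ((hC' e).1 he) s _ ((hC' e').1 he') s' ?_
  have e1 : ∀ e s, (f₁ (inl (e, s))).1 = u (f (inl (ρ.symm e, s))).1 := by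
    intro e s
    have := hf (inl (ρ.symm e, s))
    simp only [Sum.map_inl, Prod.map_apply, id_eq, Equiv.apply_symm_apply] at this
    rw [this]; rfl
  rw [e1, e1] at h
  exact u.injective h

theorem pairC_iso (u : V ≃ V₁) (ρ : E ≃ E₁) (C : Set E) (C₁ : Set E₁)
    (hC : ∀ e, e ∈ C ↔ ρ e ∈ C₁)
    (f : (E × Bool) ⊕ L → V × ℕ) (f₁ : (E₁ × Bool) ⊕ L → V₁ × ℕ)
    (hf : ∀ y, f₁ (y.map (Prod.map ρ id) id) = (f y).map u id)
    (a' : V' → ℕ × Multiset ℕ) (f' : (E' × Bool) ⊕ L → V' × ℕ) :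
    pairC C und f a' f' = pairC C₁ und f₁ a' f' := by
  have hf' : ∀ y, f (y.map (Prod.map ρ.symm id) id) = (f₁ y).map u.symm id := by
    intro y
    have := hf (y.map (Prod.map ρ.symm id) id)
    have e1 : Sum.map (Prod.map ρ id) id (y.map (Prod.map ρ.symm id) id) = y := by
      rcases y with ⟨e, s⟩ | x <;> simp
    rw [e1] at this
    rw [this]
    exact Prod.ext (by simp) rfl
  unfold pairC
  rw [Nat.card_congr ρ]
  refine Finset.sum_congr rfl fun k _ => ?_
  congr 1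
  rw [← finsum_subtype_eq_finsum_cond (p := fun S : Dgn k und f a' f' => TC C S),
    ← finsum_subtype_eq_finsum_cond (p := fun S : Dgn k und f₁ a' f' => TC C₁ S)]
  have hC2 : ∀ e, e ∈ C₁ ↔ ρ.symm e ∈ C := fun e => by rw [hC, Equiv.apply_symm_apply]
  refine finsum_eq_of_bijective (fun S => ⟨iso u ρ hf S.1, iso_TC u ρ hf hC S.1 S.2⟩) ?_ ?_
  · refine Function.bijective_iff_has_inverse.2
      ⟨fun S => ⟨iso u.symm ρ.symm hf' S.1, iso_TC u.symm ρ.symm hf' hC2 S.1 S.2⟩, ?_, ?_⟩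
    · intro S
      exact Subtype.ext (iso_iso u ρ hf hf' S.1)
    · intro S
      exact Subtype.ext (iso_iso u.symm ρ.symm hf' hf S.1)
  · intro S
    exact (iso_wt u ρ hf S.1).symm

end Iso

end Vale.Agent.P273.Num
end
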