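import Vale.Agent.P273.D14.H593.NumX

/-! Extensionality for degenerations. -/

noncomputable section

namespace Vale.Agent.P273.Num

open Sum Vale.Agent.P273.Q
open scoped Classical Nat

variable {V E V' E' L : Type} {k : ℕ} {a : V → ℕ × Multiset ℕ} {f : (E × Bool) ⊕ L → V × ℕ}
  {a' : V' → ℕ × Multiset ℕ} {f' : (E' × Bool) ⊕ L → V' × ℕ}

theorem Dgn.ext' {S T : Dgn k a f a' f'} (h1 : S.g = T.g) (h2 : S.h = T.h) (h3 : S.h' = T.h')
    (h4 : S.p = T.p) (h5 : S.p' = T.p') (h6 : S.M = T.M) (h7 : S.J = T.J) (h8 : S.c = T.c)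
    (h9 : S.c' = T.c') : S = T := by
  obtain ⟨g, h, h', p, p', M, J, c, c', _, _, _, _, _, _, _, _, _, _, _⟩ := S
  obtain ⟨g2, h2, h'2, p2, p'2, M2, J2, c2, c'2, _, _, _, _, _, _, _, _, _, _, _⟩ := T
  dsimp only at *
  subst h1 h2 h3 h4 h5 h6 h7 h8 h9
  rfl

theorem Kap_und_elim (t : Kap (und : V → ℕ × Multiset ℕ)) : False := by
  obtain ⟨v, t⟩ := t
  have : t.1 ∈ (0 : Multiset ℕ) := Multiset.coe_mem (x := t)
  simp at this

instance : IsEmpty (Kap (und : V → ℕ × Multiset ℕ)) := ⟨Kap_und_elim⟩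

end Vale.Agent.P273.Num
end
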