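import Vale.Agent.P273.D14.H593.NumA
import Vale.Agent.P273.D14.H593.NumE

/-! Package F, part 1: the theta graph. -/

noncomputable section

namespace Vale.Agent.P273.Num

open Sum Vale.Agent.P273.Q
open scoped Nat

variable {V E V' E' W D L : Type}

/-- The vertex of a half-edge of the theta graph. -/
def hv (p q : ℕ) : (Fin 3 ⊕ Fin 6) × Bool → Option (Fin 7)
  | (inl _, true) => none
  | (inr t, true) => some t.castSucc
  | (e, false) => some (hd p q e)

theorem th_inl (p q : ℕ) (σ : Bool → Equiv.Perm (Fin 7)) (z : (Fin 3 ⊕ Fin 6) × Bool) :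
    th p q σ (inl z) = (hv p q z, 0) := by
  rcases z with ⟨e | e, s⟩ <;> cases s <;> rfl

theorem th_snd (p q : ℕ) (σ : Bool → Equiv.Perm (Fin 7)) (y) : (th p q σ y).2 = 0 := by
  rcases y with z | ⟨i, b⟩
  · rw [th_inl]
  · rfl

def K12 (q : ℕ) : Set (Fin 3 ⊕ Fin 6) := {e | e = inl 0 ∨ e = inl 1 ∨ ∃ t : Fin 6, e = inr t ∧ t.1 < q}
def K23 (p : ℕ) : Set (Fin 3 ⊕ Fin 6) := {e | e = inl 1 ∨ e = inl 2 ∨ ∃ t : Fin 6, e = inr t ∧ p ≤ t.1}
def K13 (p q : ℕ) : Set (Fin 3 ⊕ Fin 6) :=
  {e | e = inl 0 ∨ e = inl 2 ∨ ∃ t : Fin 6, e = inr t ∧ (t.1 < p ∨ q ≤ t.1)}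

def c12 (q : ℕ) : Fin 3 ⊕ Fin 6 → Bool
  | inl 0 => true
  | inl 1 => true
  | inl 2 => false
  | inr t => decide (t.1 < q)

def c23 (p : ℕ) : Fin 3 ⊕ Fin 6 → Bool
  | inl 0 => false
  | inl 1 => true
  | inl 2 => true
  | inr t => decide (p ≤ t.1)

def c13 (p q : ℕ) : Fin 3 ⊕ Fin 6 → Bool
  | inl 0 => true
  | inl 1 => false
  | inl 2 => true
  | inr t => decide (t.1 < p ∨ q ≤ t.1)

theorem mem_K12 (q : ℕ) (e) : e ∈ K12 q ↔ c12 q e = true := by
  rcases e with e | t
  · fin_cases e <;> simp [K12, c12]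
  · simp [K12, c12]

theorem mem_K23 (p : ℕ) (e) : e ∈ K23 p ↔ c23 p e = true := by
  rcases e with e | t
  · fin_cases e <;> simp [K23, c23]
  · simp [K23, c23]

theorem mem_K13 (p q : ℕ) (e) : e ∈ K13 p q ↔ c13 p q e = true := by
  rcases e with e | t
  · fin_cases e <;> simp [K13, c13]
  · simp [K13, c13]

theorem cnt12 : ∀ p q : Fin 7, p ≤ q → ∀ v,
    (Finset.univ.filter fun y : (Fin 3 ⊕ Fin 6) × Bool => c12 q y.1 = true ∧ hv p q y = v).card =
    (Finset.univ.filter fun y : (Fin 3 ⊕ Fin 6) × Bool => c12 q y.1 = true ∧ hv 0 q y = v).card := by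
  decide

theorem cnt23 : ∀ p q : Fin 7, p ≤ q → ∀ v,
    (Finset.univ.filter fun y : (Fin 3 ⊕ Fin 6) × Bool => c23 p y.1 = true ∧ hv p q y = v).card =
    (Finset.univ.filter fun y : (Fin 3 ⊕ Fin 6) × Bool => c23 p y.1 = true ∧ hv p p y = v).card := by
  decide

theorem cntu : ∀ p q : Fin 7, p ≤ q → ∀ v,
    (Finset.univ.filter fun y : (Fin 3 ⊕ Fin 6) × Bool => hv p q y = v).card =
    (Finset.univ.filter fun y : (Fin 3 ⊕ Fin 6) × Bool => hv 0 q y = v).card := by
  decide

theorem off12 : ∀ p q : Fin 7, p ≤ q → ∀ e, c12 q e = false → ∀ s, hv p q (e, s) = hv 0 q (e, s) := by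
  decide

theorem off23 : ∀ p q : Fin 7, p ≤ q → ∀ e, c23 p e = false → ∀ s, hv p q (e, s) = hv p p (e, s) := by
  decide

/-- All edges in the set are connected. -/
theorem conn12 (p q : ℕ) (hp : p ≤ q) (hq : q ≤ 6) (P : Option (Fin 7) → Prop)
    (h : ∀ e, c12 q e = true → (P (hv p q (e, true)) ↔ P (hv p q (e, false)))) :
    ∀ t : ℕ, (ht : t < q) → (P (some ⟨t, by omega⟩) ↔ P none) := by
  intro t
  induction t with
  | zero =>
    intro ht
    by_cases h0 : p = 0
    · have := h (inl 1) rfl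
      subst h0
      have e1 : hv 0 q (inl 1, false) = some ⟨0, by omega⟩ := by
        simp only [hv, hd]
        rw [if_neg (by omega)]
        rfl
      rw [e1] at this
      exact this.symm
    · have := h (inl 0) rfl
      have e1 : hv p q (inl 0, false) = some ⟨0, by omega⟩ := by
        simp only [hv, hd]
        rw [if_neg h0]
        rfl
      rw [e1] at this
      exact this.symm
  | succ t ih =>
    intro ht
    by_cases h0 : t + 1 = p
    · have := h (inl 1) rfl
      have e1 : hv p q (inl 1, false) = some ⟨t + 1, by omega⟩ := by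
        simp only [hv, hd]
        rw [if_neg (by omega)]
        congr 1
        apply Fin.ext
        simp only [Fin.ofNat]
        omega
      rw [e1] at this
      exact this.symm
    · have h1 := h (inr ⟨t, by omega⟩) (by simp [c12]; omega)
      have e1 : hv p q (inr ⟨t, by omega⟩, false) = some ⟨t + 1, by omega⟩ := by
        simp only [hv, hd]
        rw [if_neg (by omega)]
        rfl
      have e2 : hv p q (inr ⟨t, by omega⟩, true) = some ⟨t, by omega⟩ := rfl
      rw [e1, e2] at h1
      exact h1.symm.trans (ih (by omega))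

theorem conn23 (p q : ℕ) (hp : p ≤ q) (hq : q ≤ 6) (P : Option (Fin 7) → Prop)
    (h : ∀ e, c23 p e = true → (P (hv p q (e, true)) ↔ P (hv p q (e, false)))) :
    ∀ t : ℕ, (ht : t < 6) → p ≤ t → (P (some ⟨t, by omega⟩) ↔ P none) := by
  intro t
  induction t with
  | zero =>
    intro ht hpt
    by_cases h0 : p = q
    · have := h (inl 2) rfl
      have e1 : hv p q (inl 2, false) = some ⟨0, by omega⟩ := by
        simp only [hv, hd]
        congr 1
        apply Fin.ext
        simp only [Fin.ofNat]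
        omega
      rw [e1] at this
      exact this.symm
    · have := h (inl 1) rfl
      have e1 : hv p q (inl 1, false) = some ⟨0, by omega⟩ := by
        simp only [hv, hd]
        rw [if_neg h0]
        congr 1
        apply Fin.ext
        simp only [Fin.ofNat]
        omega
      rw [e1] at this
      exact this.symm
  | succ t ih =>
    intro ht hpt
    by_cases h1 : t + 1 = q
    · have := h (inl 2) rfl
      have e1 : hv p q (inl 2, false) = some ⟨t + 1, by omega⟩ := by
        simp only [hv, hd]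
        congr 1
        apply Fin.ext
        simp only [Fin.ofNat]
        omega
      rw [e1] at this
      exact this.symm
    · by_cases h0 : p = t + 1
      · have := h (inl 1) rfl
        have e1 : hv p q (inl 1, false) = some ⟨t + 1, by omega⟩ := by
          simp only [hv, hd]
          rw [if_neg (by omega)]
          congr 1
          apply Fin.ext
          simp only [Fin.ofNat]
          omega
        rw [e1] at this
        exact this.symm
      · have h1 := h (inr ⟨t, by omega⟩) (by simp [c23]; omega)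
        have e1 : hv p q (inr ⟨t, by omega⟩, false) = some ⟨t + 1, by omega⟩ := by
          simp only [hv, hd]
          rw [if_neg (by omega)]
          rfl
        have e2 : hv p q (inr ⟨t, by omega⟩, true) = some ⟨t, by omega⟩ := rfl
        rw [e1, e2] at h1
        exact h1.symm.trans (ih (by omega) (by omega))

theorem conn12' (p q : ℕ) (hp : p ≤ q) (hq : q ≤ 6) (P : Option (Fin 7) → Prop)
    (h : ∀ e ∈ K12 q, (P (hv p q (e, true)) ↔ P (hv p q (e, false)))) :
    ∀ e ∈ K12 q, ∀ b, P (hv p q (e, b)) ↔ P none := by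
  have h' := conn12 p q hp hq P fun e he => h e ((mem_K12 q e).2 he)
  have key : ∀ e ∈ K12 q, P (hv p q (e, true)) ↔ P none := by
    intro e he
    rcases e with e | t
    · exact Iff.rfl
    · have : t.1 < q := by simpa [K12] using he
      exact h' t.1 this
  intro e he b
  cases b
  · exact (h e he).symm.trans (key e he)
  · exact key e he

theorem conn23' (p q : ℕ) (hp : p ≤ q) (hq : q ≤ 6) (P : Option (Fin 7) → Prop)
    (h : ∀ e ∈ K23 p, (P (hv p q (e, true)) ↔ P (hv p q (e, false)))) :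
    ∀ e ∈ K23 p, ∀ b, P (hv p q (e, b)) ↔ P none := by
  have h' := conn23 p q hp hq P fun e he => h e ((mem_K23 p e).2 he)
  have key : ∀ e ∈ K23 p, P (hv p q (e, true)) ↔ P none := by
    intro e he
    rcases e with e | t
    · exact Iff.rfl
    · have : p ≤ t.1 := by simpa [K23] using he
      exact h' t.1 t.2 this
  intro e he b
  cases b
  · exact (h e he).symm.trans (key e he)
  · exact key e he

theorem connu' (p q : ℕ) (hp : p ≤ q) (hq : q ≤ 6) (P : Option (Fin 7) → Prop)
    (h : ∀ e, (P (hv p q (e, true)) ↔ P (hv p q (e, false)))) :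
    ∀ e b, P (hv p q (e, b)) ↔ P none := by
  intro e b
  by_cases he : e ∈ K12 q
  · exact conn12' p q hp hq P (fun e _ => h e) e he b
  · by_cases he2 : e ∈ K23 p
    · exact conn23' p q hp hq P (fun e _ => h e) e he2 b
    · exfalso
      rcases e with e | t
      · fin_cases e <;> simp [K12, K23] at he he2
      · simp [K12, K23] at he he2
        omega

theorem card_sub (cb : Fin 3 ⊕ Fin 6 → Bool) (C : Set (Fin 3 ⊕ Fin 6))
    (hC : ∀ e, e ∈ C ↔ cb e = true) (p q : ℕ) (σ : Bool → Equiv.Perm (Fin 7)) (v : Option (Fin 7)) :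
    Nat.card {y : {y : (Fin 3 ⊕ Fin 6) × Bool // y.1 ∈ C} // (th p q σ (inl y.1)).1 = v} =
    (Finset.univ.filter fun y : (Fin 3 ⊕ Fin 6) × Bool => cb y.1 = true ∧ hv p q y = v).card := by
  classical
  rw [← Fintype.card_subtype, ← Nat.card_eq_fintype_card]
  refine Nat.card_congr ?_
  refine (Equiv.subtypeSubtypeEquivSubtypeInter (fun y : (Fin 3 ⊕ Fin 6) × Bool => y.1 ∈ C)
    (fun y => (th p q σ (inl y)).1 = v)).trans ?_
  refine Equiv.subtypeEquivRight fun y => ?_
  rw [hC, th_inl]

theorem red12 (p q : ℕ) (hp : p ≤ q) (hq : q ≤ 6) (σ : Bool → Equiv.Perm (Fin 7))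
    (a' : V' → ℕ × Multiset ℕ) (f' : (E' × Bool) ⊕ (Fin 7 × Bool) → V' × ℕ) :
    pairC (K12 q) und (th p q σ) a' f' = pairC (K12 q) und (th 0 q σ) a' f' := by
  refine redistribute (K12 q) _ _ a' f' (th_snd p q σ) (th_snd 0 q σ) (fun x => rfl) ?_ ?_ ?_ ?_
  · intro e he s
    rw [th_inl, th_inl]
    have := off12 ⟨p, by omega⟩ ⟨q, by omega⟩ hp e (by
      rw [mem_K12] at he; simpa using he) s
    exact Prod.ext this rfl
  · intro v
    rw [card_sub (c12 q) _ (mem_K12 q), card_sub (c12 q) _ (mem_K12 q)]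
    exact cnt12 ⟨p, by omega⟩ ⟨q, by omega⟩ hp v
  · intro s hs e he b e' he' b' h
    simp only [th_inl] at hs h ⊢
    have := conn12' p q hp hq (· ∈ s) hs
    exact (this e' he' b').2 ((this e he b).1 h)
  · intro s hs e he b e' he' b' h
    simp only [th_inl] at hs h ⊢
    have := conn12' 0 q (by omega) hq (· ∈ s) hs
    exact (this e' he' b').2 ((this e he b).1 h)

theorem red23 (p q : ℕ) (hp : p ≤ q) (hq : q ≤ 6) (σ : Bool → Equiv.Perm (Fin 7))
    (a' : V' → ℕ × Multiset ℕ) (f' : (E' × Bool) ⊕ (Fin 7 × Bool) → V' × ℕ) :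
    pairC (K23 p) und (th p q σ) a' f' = pairC (K23 p) und (th p p σ) a' f' := by
  refine redistribute (K23 p) _ _ a' f' (th_snd p q σ) (th_snd p p σ) (fun x => rfl) ?_ ?_ ?_ ?_
  · intro e he s
    rw [th_inl, th_inl]
    have := off23 ⟨p, by omega⟩ ⟨q, by omega⟩ hp e (by
      rw [mem_K23] at he; simpa using he) s
    exact Prod.ext this rfl
  · intro v
    rw [card_sub (c23 p) _ (mem_K23 p), card_sub (c23 p) _ (mem_K23 p)]
    exact cnt23 ⟨p, by omega⟩ ⟨q, by omega⟩ hp v
  · intro s hs e he b e' he' b' h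
    simp only [th_inl] at hs h ⊢
    have := conn23' p q hp hq (· ∈ s) hs
    exact (this e' he' b').2 ((this e he b).1 h)
  · intro s hs e he b e' he' b' h
    simp only [th_inl] at hs h ⊢
    have := conn23' p p (by omega) (by omega) (· ∈ s) hs
    exact (this e' he' b').2 ((this e he b).1 h)

theorem redu (p q : ℕ) (hp : p ≤ q) (hq : q ≤ 6) (σ : Bool → Equiv.Perm (Fin 7))
    (a' : V' → ℕ × Multiset ℕ) (f' : (E' × Bool) ⊕ (Fin 7 × Bool) → V' × ℕ) :
    pairC Set.univ und (th p q σ) a' f' = pairC Set.univ und (th 0 q σ) a' f' := by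
  refine redistribute Set.univ _ _ a' f' (th_snd p q σ) (th_snd 0 q σ) (fun x => rfl) ?_ ?_ ?_ ?_
  · intro e he
    exact absurd (Set.mem_univ e) he
  · intro v
    rw [card_sub (fun _ => true) _ (by simp), card_sub (fun _ => true) _ (by simp)]
    simpa using cntu ⟨p, by omega⟩ ⟨q, by omega⟩ hp v
  · intro s hs e he b e' he' b' h
    simp only [th_inl] at hs h ⊢
    have := connu' p q hp hq (· ∈ s) (fun e => hs e (Set.mem_univ e))
    exact (this e' b').2 ((this e b).1 h)
  · intro s hs e he b e' he' b' h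
    simp only [th_inl] at hs h ⊢
    have := connu' 0 q (by omega) hq (· ∈ s) (fun e => hs e (Set.mem_univ e))
    exact (this e' b').2 ((this e b).1 h)

end Vale.Agent.P273.Num
end
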