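import Vale.Agent.P273.D14.H593.NumR
import Vale.Agent.P273.D14.H837.Full
import Vale.Agent.P273.D14.H789.Theta
import Vale.Agent.P273.D14.H789.Cyc
import Vale.Agent.P273.D14.H741.Upd

/-! Package F, part 3: assembly, from the statements of the packages B, C, D. -/

noncomputable section

namespace Vale.Agent.P273.Num

open Sum Vale.Agent.P273.Q
open scoped Classical Nat

variable {V E V' E' W D L : Type}

/-! ### Statements of the packages B, C, D -/

def StB : Prop := ∀ {V' E' : Type} (a' : V' → ℕ × Multiset ℕ)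
    (f' : (E' × Bool) ⊕ (Fin 7 × Bool) → V' × ℕ), Valid a' f' 2 8 →
    (∀ v, (a' v).1 = 0) → (∀ v, 0 ∉ (a' v).2) →
    (∀ i j b, i ≠ j → f' (inr (i, b)) ≠ f' (inr (j, b))) →
    a' = und ∧ (∀ y, (f' y).2 = 0) ∧ Nat.card V' = 7 ∧ Nat.card E' = 8 ∧
      ∀ b v, ∃! i, (f' (inr (i, b))).1 = v

def StC : Prop := ∀ {V E V' E' L : Type} [Finite V] [Finite E] [Finite V'] [Finite E'] [Finite L]
    (f : (E × Bool) ⊕ L → V × ℕ) (f' : (E' × Bool) ⊕ L → V' × ℕ) (x : L),
    (∀ y, (f y).2 = 0) → (∀ y, (f' y).2 = 0) → 4 ≤ nv f (f (inr x)).1 →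
    (∀ v, 4 ≤ nv (Function.update f' (inr x) (v, 0)) v) → Nat.card V' ≤ Nat.card E' →
    ∑ᶠ v, pair und f und (Function.update f' (inr x) (v, 0)) = 0

def StD1 : Prop := ∀ {V E V' E' L : Type} [Finite V] {k : ℕ} {f : (E × Bool) ⊕ L → V × ℕ}
    {a' : V' → ℕ × Multiset ℕ} {f' : (E' × Bool) ⊕ L → V' × ℕ} [Finite E']
    (S : Dgn k und f a' f'), S.g = 0

def StD2 : Prop := ∀ {V E V' E' L : Type} [Finite V] [Finite E] [Finite E'] {k : ℕ}
    {f : (E × Bool) ⊕ L → V × ℕ}
    {a' : V' → ℕ × Multiset ℕ} {f' : (E' × Bool) ⊕ L → V' × ℕ} (S : Dgn k und f a' f')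
    (u : V'), 1 ≤ (a' u).1 →
    ∃ K : Set E, K.Nonempty ∧ (∀ e ∈ K, S.M e = none) ∧
      ∀ e ∈ K, ∀ s, ∃ e' ∈ K, ∃ s', (e', s') ≠ (e, s) ∧ S.h (inl (e', s')) = S.h (inl (e, s))

def StD3 : Prop := ∀ {V' E' : Type} {k : ℕ} {p q : ℕ} (_ : p ≤ q) (_ : q ≤ 6)
    {σ : Bool → Equiv.Perm (Fin 7)}
    {a' : V' → ℕ × Multiset ℕ} {f' : (E' × Bool) ⊕ (Fin 7 × Bool) → V' × ℕ}
    (S : Dgn k und (th p q σ) a' f') (K : Set (Fin 3 ⊕ Fin 6)), K.Nonempty →
    (∀ e ∈ K, S.M e = none) →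
    (∀ e ∈ K, ∀ s, ∃ e' ∈ K, ∃ s', (e', s') ≠ (e, s) ∧ S.h (inl (e', s')) = S.h (inl (e, s))) →
    TC (K12 q) S ∨ TC (K23 p) S ∨ TC (K13 p q) S

def StD4 : Prop := ∀ {V' E' : Type} {k : ℕ} {p q : ℕ} (_ : p ≤ q) (_ : q ≤ 6)
    {σ : Bool → Equiv.Perm (Fin 7)}
    {a' : V' → ℕ × Multiset ℕ} {f' : (E' × Bool) ⊕ (Fin 7 × Bool) → V' × ℕ}
    (S : Dgn k und (th p q σ) a' f'),
    (TC Set.univ S → TC (K12 q) S ∧ TC (K23 p) S ∧ TC (K13 p q) S) ∧
    (TC (K12 q) S → TC (K23 p) S → TC Set.univ S) ∧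
    (TC (K12 q) S → TC (K13 p q) S → TC Set.univ S) ∧
    (TC (K23 p) S → TC (K13 p q) S → TC Set.univ S)

/-! ### Finiteness -/

theorem dgn_finite (hD : StD1) [Finite V] [Finite E] [Finite V'] [Finite E'] [Finite L] {k : ℕ}
    {f : (E × Bool) ⊕ L → V × ℕ} {a' : V' → ℕ × Multiset ℕ} {f' : (E' × Bool) ⊕ L → V' × ℕ} :
    Finite (Dgn k und f a' f') := by
  have : Finite (Kap a') := inferInstance
  let F : Dgn k und f a' f' → ((E × Bool) ⊕ L → Fin k) × (E' × Bool → Fin k) × (Kap a' → Fin k) ×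
      (E → Option (E' × Bool)) × (Fin k → V) × (Fin k → V') :=
    fun S => (S.h, S.h', S.p', S.M, S.c, S.c')
  refine Finite.of_injective F fun S T h => ?_
  simp only [F, Prod.mk.injEq] at h
  refine Dgn.ext' ?_ h.1 h.2.1 (Subsingleton.elim _ _) h.2.2.1 h.2.2.2.1 (Subsingleton.elim _ _)
    h.2.2.2.2.1 h.2.2.2.2.2
  rw [hD S, hD T]

/-! ### Positive genus -/

theorem ind_split (A B C U : Prop) (x : ℚ) (h : A ∨ B ∨ C) (h1 : U → A ∧ B ∧ C) (h2 : A → B → U)
    (h3 : A → C → U) (h4 : B → C → U) :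
    x = (if A then x else 0) + (if B then x else 0) + (if C then x else 0) -
      2 * (if U then x else 0) := by
  by_cases a4 : U
  · obtain ⟨a1, a2, a3⟩ := h1 a4
    simp only [a1, a2, a3, a4, if_true]
    ring
  · rcases h with a | a | a
    · have b : ¬ B := fun b => a4 (h2 a b)
      have c : ¬ C := fun b => a4 (h3 a b)
      simp [a, b, c, a4]
    · have b : ¬ A := fun b => a4 (h2 b a)
      have c : ¬ C := fun b => a4 (h4 a b)
      simp [a, b, c, a4]
    · have b : ¬ A := fun b => a4 (h3 b a)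
      have c : ¬ B := fun b => a4 (h4 b a)
      simp [a, b, c, a4]

theorem pair_split (h1 : StD1) (h2 : StD2) (h3 : StD3) (h4 : StD4) [Finite V'] [Finite E']
    {p q : ℕ} (hp : p ≤ q) (hq : q ≤ 6) (σ : Bool → Equiv.Perm (Fin 7))
    (a' : V' → ℕ × Multiset ℕ) (f' : (E' × Bool) ⊕ (Fin 7 × Bool) → V' × ℕ)
    (u : V') (hu : 1 ≤ (a' u).1) :
    pair und (th p q σ) a' f' = pairC (K12 q) und (th p q σ) a' f' +
      pairC (K23 p) und (th p q σ) a' f' + pairC (K13 p q) und (th p q σ) a' f' -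
      2 * pairC Set.univ und (th p q σ) a' f' := by
  unfold pair pairC
  rw [Finset.mul_sum, ← Finset.sum_add_distrib, ← Finset.sum_add_distrib, ← Finset.sum_sub_distrib]
  refine Finset.sum_congr rfl fun k _ => ?_
  have hfin : Finite (Dgn k und (th p q σ) a' f') := dgn_finite h1
  cases nonempty_fintype (Dgn k und (th p q σ) a' f')
  have key : ∀ C : Set (Fin 3 ⊕ Fin 6), (∑ᶠ (S : Dgn k und (th p q σ) a' f') (_ : TC C S), S.wt) =
      ∑ S : Dgn k und (th p q σ) a' f', if TC C S then S.wt else 0 := by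
    intro C
    rw [finsum_eq_sum_of_fintype]
    refine Finset.sum_congr rfl fun S _ => ?_
    by_cases h : TC C S
    · simp [h]
    · simp [h]
  rw [key, key, key, key, finsum_eq_sum_of_fintype, mul_div_assoc', Finset.mul_sum, ← add_div,
    ← add_div, ← sub_div, ← Finset.sum_add_distrib, ← Finset.sum_add_distrib,
    ← Finset.sum_sub_distrib]
  congr 1
  refine Finset.sum_congr rfl fun S _ => ?_
  obtain ⟨K, hK, hM, hc⟩ := h2 S u hu
  have t1 := h3 hp hq S K hK hM hc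
  obtain ⟨t2, t3, t4, t5⟩ := h4 hp hq S
  exact ind_split _ _ _ _ _ t1 t2 t3 t4 t5

theorem main_pos (h1 : StD1) (h2 : StD2) (h3 : StD3) (h4 : StD4) [Finite V'] [Finite E']
    (a' : V' → ℕ × Multiset ℕ) (f' : (E' × Bool) ⊕ (Fin 7 × Bool) → V' × ℕ)
    (u : V') (hu : 1 ≤ (a' u).1) :
    ∑ q ∈ Finset.range 7, ∑ p ∈ Finset.range (q + 1), (disc p (q - p) (6 - q) : ℚ) *
      ∑ σ, sg σ * pair und (th p q σ) a' f' = 0 := by
  have : ∑ q ∈ Finset.range 7, ∑ p ∈ Finset.range (q + 1), (disc p (q - p) (6 - q) : ℚ) *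
      ∑ σ, sg σ * pair und (th p q σ) a' f' =
      ∑ q ∈ Finset.range 7, ∑ p ∈ Finset.range (q + 1), ((disc p (q - p) (6 - q) : ℚ) *
        A12 a' f' p q + (disc p (q - p) (6 - q) : ℚ) *
        ∑ σ, sg σ * pairC (K23 p) und (th p q σ) a' f' + (disc p (q - p) (6 - q) : ℚ) *
        ∑ σ, sg σ * pairC (K13 p q) und (th p q σ) a' f' - 2 * ((disc p (q - p) (6 - q) : ℚ) *
        ∑ σ, sg σ * pairC Set.univ und (th p q σ) a' f')) := by
    refine Finset.sum_congr rfl fun q hq => Finset.sum_congr rfl fun p hp => ?_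
    rw [Finset.mem_range] at hq hp
    have : ∑ σ, sg σ * pair und (th p q σ) a' f' = A12 a' f' p q +
        ∑ σ, sg σ * pairC (K23 p) und (th p q σ) a' f' +
        ∑ σ, sg σ * pairC (K13 p q) und (th p q σ) a' f' -
        2 * ∑ σ, sg σ * pairC Set.univ und (th p q σ) a' f' := by
      unfold A12
      rw [Finset.mul_sum, ← Finset.sum_add_distrib, ← Finset.sum_add_distrib,
        ← Finset.sum_sub_distrib]
      refine Finset.sum_congr rfl fun σ _ => ?_
      rw [pair_split h1 h2 h3 h4 (by omega) (by omega) σ a' f' u hu]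
      ring
    rw [this]
    ring
  rw [this]
  simp only [Finset.sum_sub_distrib, Finset.sum_add_distrib, ← Finset.mul_sum]
  rw [tot12, tot23, tot13, totu]
  ring

/-! ### All vertices rational -/

theorem four_le {X : Type} [Finite X] (P : X → Prop) (y₁ y₂ y₃ y₄ : X) (h₁ : P y₁) (h₂ : P y₂)
    (h₃ : P y₃) (h₄ : P y₄) (h12 : y₁ ≠ y₂) (h13 : y₁ ≠ y₃) (h14 : y₁ ≠ y₄) (h23 : y₂ ≠ y₃)
    (h24 : y₂ ≠ y₄) (h34 : y₃ ≠ y₄) : 4 ≤ Nat.card {y // P y} := by
  have : Nat.card (Fin 4) ≤ Nat.card {y // P y} := by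
    refine Nat.card_le_card_of_injective
      (![⟨y₁, h₁⟩, ⟨y₂, h₂⟩, ⟨y₃, h₃⟩, ⟨y₄, h₄⟩] : Fin 4 → {y // P y}) ?_
    intro i j hij
    fin_cases i <;> fin_cases j <;> simp_all
  simpa using this

theorem hv_two : ∀ p q : Fin 7, p ≤ q → ∀ t : Fin 7, ∃ y₁ y₂ : (Fin 3 ⊕ Fin 6) × Bool,
    y₁ ≠ y₂ ∧ hv p q y₁ = some t ∧ hv p q y₂ = some t := by
  decide

theorem main_zero (hB : StB) (hC : StC)
    (a' : V' → ℕ × Multiset ℕ) (f' : (E' × Bool) ⊕ (Fin 7 × Bool) → V' × ℕ)
    (hv' : Valid a' f' 2 8) (hk : ∀ v, 0 ∉ (a' v).2) (h0 : ∀ v, (a' v).1 = 0) {p q : ℕ}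
    (hp : p ≤ q) (hq : q ≤ 6) : ∑ σ, sg σ * pair und (th p q σ) a' f' = 0 := by
  by_cases hd : ∀ i j b, i ≠ j → f' (inr (i, b)) ≠ f' (inr (j, b))
  swap
  · push Not at hd
    obtain ⟨i, j, b, hij, h⟩ := hd
    exact antisym p q a' f' i j b hij h
  obtain ⟨ha, hf, hV, hE, hu⟩ := hB a' f' hv' h0 hk hd
  subst ha
  have hVf : Finite V' := hv'.1.1
  have hEf : Finite E' := hv'.1.2.1
  -- valences
  have hval : ∃ v₀, ∃ y₁ y₂ : E' × Bool, y₁ ≠ y₂ ∧ (f' (inl y₁)).1 = v₀ ∧ (f' (inl y₂)).1 = v₀ := by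
    by_contra hcon
    push Not at hcon
    have hinj : Function.Injective fun y : E' × Bool => (f' (inl y)).1 := by
      intro y₁ y₂ h
      by_contra hne
      exact hcon _ y₁ y₂ hne rfl h.symm
    have := Nat.card_le_card_of_injective _ hinj
    rw [Nat.card_prod, hE, hV] at this
    simp at this
  obtain ⟨v₀, y₁, y₂, hy, hy₁, hy₂⟩ := hval
  obtain ⟨i₀, hi₀, hi₀'⟩ := hu true v₀
  have hone : ∀ v, ∃ y : E' × Bool, (f' (inl y)).1 = v := by
    intro v
    by_contra hcon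
    push Not at hcon
    rcases hv'.1.2.2.2.1 {v} fun e => by
        constructor <;> intro h
        · exact absurd h (hcon (e, true))
        · exact absurd h (hcon (e, false)) with h | h
    · exact (Set.singleton_ne_empty v) h
    · have : Nat.card V' ≤ 1 := by
        rw [Nat.card_eq_one_iff_unique.2 ⟨⟨fun a b => ?_⟩, ⟨v⟩⟩]
        have ha : a ∈ ({v} : Set V') := by rw [h]; trivial
        have hb : b ∈ ({v} : Set V') := by rw [h]; trivial
        exact ha.trans hb.symm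
      omega
  have key : ∀ σ, ∑ᶠ v, pair und (th p q σ) und
      (Function.update f' (inr (i₀, true)) (v, 0)) = 0 := by
    intro σ
    have hC' := fun h h' => hC (th p q σ) f' (i₀, true) (th_snd p q σ) hf h h' (by omega)
    have hC'' : 4 ≤ nv (th p q σ) (th p q σ (inr (i₀, true))).1 →
        (∀ v, 4 ≤ nv (Function.update f' (inr (i₀, true)) (v, 0)) v) →
        ∑ᶠ v, pair und (th p q σ) und (Function.update f' (inr (i₀, true)) (v, 0)) = 0 := by
      intro h h'
      have := hC' h (fun v => by rw [D14.upd_eq]; exact h' v)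
      refine Eq.trans (finsum_congr fun v => ?_) this
      rw [D14.upd_eq]
    refine hC'' ?_ ?_
    · obtain ⟨z₁, z₂, hz, hz₁, hz₂⟩ := hv_two ⟨p, by omega⟩ ⟨q, by omega⟩ hp (σ true i₀)
      refine four_le _ (inl z₁) (inl z₂) (inr (i₀, true))
        (inr ((σ false).symm (σ true i₀), false)) ?_ ?_ rfl ?_ ?_ (by simp) (by simp) (by simp)
        (by simp) (by simp)
      · rw [th_inl]; exact hz₁
      · rw [th_inl]; exact hz₂
      · change some (σ false ((σ false).symm (σ true i₀))) = some (σ true i₀)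
        rw [Equiv.apply_symm_apply]
      · simpa using hz
    · intro v
      have hup : ∀ y, y ≠ inr (i₀, true) →
          Function.update f' (inr (i₀, true)) (v, 0) y = f' y := fun y h =>
        Function.update_of_ne h _ _
      obtain ⟨j, hj, -⟩ := hu false v
      by_cases hvv : v = v₀
      · refine four_le _ (inl y₁) (inl y₂) (inr (i₀, true)) (inr (j, false)) ?_ ?_ ?_ ?_ ?_
          (by simp) (by simp) (by simp) (by simp) (by simp)
        · rw [hup _ (by simp), hy₁, hvv]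
        · rw [hup _ (by simp), hy₂, hvv]
        · rw [Function.update_self]
        · rw [hup _ (by simp), hj]
        · simpa using hy
      · obtain ⟨i, hi, -⟩ := hu true v
        obtain ⟨y, hy⟩ := hone v
        have hii : i ≠ i₀ := by
          rintro rfl
          exact hvv (hi.symm.trans hi₀)
        refine four_le _ (inl y) (inr (i, true)) (inr (i₀, true)) (inr (j, false)) ?_ ?_ ?_ ?_
          (by simp) (by simp) (by simp) ?_ (by simp) (by simp)
        · rw [hup _ (by simp), hy]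
        · rw [hup _ (by simpa using hii), hi]
        · rw [Function.update_self]
        · rw [hup _ (by simp), hj]
        · simpa using hii
  have h2 : ∑ σ, sg σ * ∑ᶠ v, pair und (th p q σ) und
      (Function.update f' (inr (i₀, true)) (v, 0)) = 0 := by
    refine Finset.sum_eq_zero fun σ _ => ?_
    rw [key, mul_zero]
  cases nonempty_fintype V'
  simp only [finsum_eq_sum_of_fintype, Finset.mul_sum] at h2
  rw [Finset.sum_comm, Finset.sum_eq_single v₀] at h2
  · have h3 : Function.update f' (inr (i₀, true)) (v₀, 0) = f' := by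
      have : (v₀, 0) = f' (inr (i₀, true)) := Prod.ext hi₀.symm (hf _).symm
      rw [this, Function.update_eq_self]
    rw [h3] at h2
    exact h2
  · intro v _ hvv
    obtain ⟨i, hi, -⟩ := hu true v
    have hii : i₀ ≠ i := by
      rintro rfl
      exact hvv (hi.symm.trans hi₀)
    refine antisym p q und _ i₀ i true hii ?_
    rw [Function.update_self, Function.update_of_ne (by simpa using hii.symm)]
    exact Prod.ext hi.symm (hf _).symm
  · intro h
    exact absurd (Finset.mem_univ _) h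

theorem main_of (hB : StB) (hC : StC) (h1 : StD1) (h2 : StD2) (h3 : StD3) (h4 : StD4)
    (a' : V' → ℕ × Multiset ℕ) (f' : (E' × Bool) ⊕ (Fin 7 × Bool) → V' × ℕ)
    (hv : Valid a' f' 2 8) (hk : ∀ v, 0 ∉ (a' v).2) :
    ∑ q ∈ Finset.range 7, ∑ p ∈ Finset.range (q + 1), (disc p (q - p) (6 - q) : ℚ) *
      ∑ σ, sg σ * pair und (th p q σ) a' f' = 0 := by
  have hVf : Finite V' := hv.1.1
  have hEf : Finite E' := hv.1.2.1
  by_cases h : ∃ u, 1 ≤ (a' u).1
  · obtain ⟨u, hu⟩ := h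
    exact main_pos h1 h2 h3 h4 a' f' u hu
  · push Not at h
    refine Finset.sum_eq_zero fun q hq => Finset.sum_eq_zero fun p hp => ?_
    rw [Finset.mem_range] at hq hp
    rw [main_zero hB hC a' f' hv hk (fun v => by have := h v; omega) (by omega) (by omega),
      mul_zero]

end Vale.Agent.P273.Num
end
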