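import Vale.Agent.P273.D14.H593.NumMain

/-! Package F, part 4: the numerical statement from the string equation. -/

noncomputable section

namespace Vale.Agent.P273.Num

open Sum Vale.Agent.P273.Q
open scoped Classical Nat

variable {V' E' : Type}

theorem main_of_string (hC : StC)
    (a' : V' → ℕ × Multiset ℕ) (f' : (E' × Bool) ⊕ (Fin 7 × Bool) → V' × ℕ)
    (hv : Valid a' f' 2 8) (hk : ∀ v, 0 ∉ (a' v).2) :
    ∑ q ∈ Finset.range 7, ∑ p ∈ Finset.range (q + 1), (disc p (q - p) (6 - q) : ℚ) *
      ∑ σ, sg σ * pair und (th p q σ) a' f' = 0 :=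
  main_of (fun a' f' hv h0 hk hd => full_of_rational a' f' hv h0 hk hd) hC
    (fun S => S.g_zero) (fun S u hu => exists_cycle S u hu)
    (fun hp hq _ _ _ S K hK hM hc => theta_cycle hp hq S K hK hM hc)
    (fun hp hq _ _ _ S => theta_types hp hq S) a' f' hv hk

end Vale.Agent.P273.Num
end
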