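import Vale.Agent.P273.D14.H593.NumF

/-! Package F, part 2: rotation of the chains of the theta graph. -/

noncomputable section

namespace Vale.Agent.P273.Num

open Sum Vale.Agent.P273.Q
open scoped Nat

variable {V E V' E' W D L : Type}

/-- Rotation of the inner vertices of the chains. -/
def rot6 (q : ℕ) : Equiv.Perm (Fin 6) := Equiv.addRight (Fin.ofNat 6 (6 - q))

def rot7 (q : ℕ) : Equiv.Perm (Fin 7) :=
  finSuccEquivLast.trans ((Equiv.optionCongr (rot6 q)).trans finSuccEquivLast.symm)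

def rot3 : Equiv.Perm (Fin 3) := Equiv.addRight 1

def rotE (q : ℕ) : Equiv.Perm (Fin 3 ⊕ Fin 6) := Equiv.sumCongr rot3 (rot6 q)

theorem rot_hv : ∀ p q : Fin 7, p ≤ q → ∀ (e : Fin 3 ⊕ Fin 6) (s : Bool),
    hv (6 - q.1) (6 - q.1 + p.1) (rotE q e, s) = (hv p q (e, s)).map (rot7 q) := by
  decide

theorem rot_c : ∀ p q : Fin 7, p ≤ q → ∀ (e : Fin 3 ⊕ Fin 6),
    c13 p.1 q.1 e = c12 (6 - q.1 + p.1) (rotE q e) := by
  decide

def rotσ (q : ℕ) : (Bool → Equiv.Perm (Fin 7)) ≃ (Bool → Equiv.Perm (Fin 7)) :=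
  Equiv.piCongrRight fun _ => Equiv.mulLeft (rot7 q)

theorem sg_rot (q : ℕ) (σ) : sg (rotσ q σ) = sg σ := by
  unfold sg rotσ
  simp only [Equiv.piCongrRight_apply, Pi.map_apply, Equiv.coe_mulLeft, Equiv.Perm.sign_mul]
  have : ((Equiv.Perm.sign (rot7 q) : ℤˣ) : ℤ) * (Equiv.Perm.sign (rot7 q) : ℤˣ) = 1 := by
    rw [← Units.val_mul, Int.units_mul_self]; rfl
  push_cast
  have h2 : (((Equiv.Perm.sign (rot7 q) : ℤˣ) : ℤ) : ℚ) * ((Equiv.Perm.sign (rot7 q) : ℤˣ) : ℤ) = 1 := by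
    exact_mod_cast this
  calc _ = ((((Equiv.Perm.sign (rot7 q) : ℤˣ) : ℤ) : ℚ) * ((Equiv.Perm.sign (rot7 q) : ℤˣ) : ℤ)) *
      ((((Equiv.Perm.sign (σ true) : ℤˣ) : ℤ) : ℚ) * ((Equiv.Perm.sign (σ false) : ℤˣ) : ℤ)) := by ring
    _ = _ := by rw [h2]; ring

theorem rot13 (p q : ℕ) (hp : p ≤ q) (hq : q ≤ 6) (σ : Bool → Equiv.Perm (Fin 7))
    (a' : V' → ℕ × Multiset ℕ) (f' : (E' × Bool) ⊕ (Fin 7 × Bool) → V' × ℕ) :
    pairC (K13 p q) und (th p q σ) a' f' =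
      pairC (K12 (6 - q + p)) und (th (6 - q) (6 - q + p) (rotσ q σ)) a' f' := by
  refine pairC_iso (Equiv.optionCongr (rot7 q)) (rotE q) (K13 p q) (K12 (6 - q + p)) ?_ _ _ ?_ a' f'
  · intro e
    rw [mem_K13, mem_K12]
    have := rot_c ⟨p, by omega⟩ ⟨q, by omega⟩ hp e
    simp only at this
    rw [this]
  · intro y
    rcases y with ⟨e, s⟩ | ⟨i, b⟩
    · rw [th_inl]
      simp only [Sum.map_inl, Prod.map_apply, id_eq, th_inl]
      have := rot_hv ⟨p, by omega⟩ ⟨q, by omega⟩ hp e s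
      simp only at this
      rw [this]
      rfl
    · rfl

/-- The antisymmetrized contribution of type `K12`. -/
def A12 (a' : V' → ℕ × Multiset ℕ) (f' : (E' × Bool) ⊕ (Fin 7 × Bool) → V' × ℕ) (p q : ℕ) : ℚ :=
  ∑ σ, sg σ * pairC (K12 q) und (th p q σ) a' f'

theorem sum13 (p q : ℕ) (hp : p ≤ q) (hq : q ≤ 6)
    (a' : V' → ℕ × Multiset ℕ) (f' : (E' × Bool) ⊕ (Fin 7 × Bool) → V' × ℕ) :
    ∑ σ, sg σ * pairC (K13 p q) und (th p q σ) a' f' = A12 a' f' (6 - q) (6 - q + p) := by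
  unfold A12
  conv_rhs => rw [← Equiv.sum_comp (rotσ q)]
  refine Finset.sum_congr rfl fun σ _ => ?_
  rw [rot13 p q hp hq, sg_rot]

theorem disc_sum (q : ℕ) (hq : q < 7) :
    ∑ p ∈ Finset.range (q + 1), (disc p (q - p) (6 - q) : ℚ) = 0 := by
  have : ∑ p ∈ Finset.range (q + 1), disc p (q - p) (6 - q) = 0 := by
    interval_cases q <;> decide
  exact_mod_cast this

theorem disc_sum' (p : ℕ) (hp : p < 7) :
    ∑ q ∈ Finset.Ico p 7, (disc p (q - p) (6 - q) : ℚ) = 0 := by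
  have : ∑ q ∈ Finset.Ico p 7, disc p (q - p) (6 - q) = 0 := by
    interval_cases p <;> decide
  exact_mod_cast this

theorem tot12 (a' : V' → ℕ × Multiset ℕ) (f' : (E' × Bool) ⊕ (Fin 7 × Bool) → V' × ℕ) :
    ∑ q ∈ Finset.range 7, ∑ p ∈ Finset.range (q + 1), (disc p (q - p) (6 - q) : ℚ) *
      A12 a' f' p q = 0 := by
  refine Finset.sum_eq_zero fun q hq => ?_
  rw [Finset.mem_range] at hq
  have : ∀ p ∈ Finset.range (q + 1), (disc p (q - p) (6 - q) : ℚ) * A12 a' f' p q =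
      (disc p (q - p) (6 - q) : ℚ) * A12 a' f' 0 q := by
    intro p hp
    rw [Finset.mem_range] at hp
    unfold A12
    simp only [red12 p q (by omega) (by omega)]
  rw [Finset.sum_congr rfl this, ← Finset.sum_mul, disc_sum q hq, zero_mul]

theorem totu (a' : V' → ℕ × Multiset ℕ) (f' : (E' × Bool) ⊕ (Fin 7 × Bool) → V' × ℕ) :
    ∑ q ∈ Finset.range 7, ∑ p ∈ Finset.range (q + 1), (disc p (q - p) (6 - q) : ℚ) *
      ∑ σ, sg σ * pairC Set.univ und (th p q σ) a' f' = 0 := by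
  refine Finset.sum_eq_zero fun q hq => ?_
  rw [Finset.mem_range] at hq
  have : ∀ p ∈ Finset.range (q + 1), (disc p (q - p) (6 - q) : ℚ) *
      ∑ σ, sg σ * pairC Set.univ und (th p q σ) a' f' =
      (disc p (q - p) (6 - q) : ℚ) * ∑ σ, sg σ * pairC Set.univ und (th 0 q σ) a' f' := by
    intro p hp
    rw [Finset.mem_range] at hp
    simp only [redu p q (by omega) (by omega)]
  rw [Finset.sum_congr rfl this, ← Finset.sum_mul, disc_sum q hq, zero_mul]

theorem sum_swap (F : ℕ → ℕ → ℚ) : ∑ q ∈ Finset.range 7, ∑ p ∈ Finset.range (q + 1), F p q =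
    ∑ p ∈ Finset.range 7, ∑ q ∈ Finset.Ico p 7, F p q := by
  refine Finset.sum_comm' fun q p => ?_
  simp only [Finset.mem_range, Finset.mem_Ico]
  omega

theorem tot23 (a' : V' → ℕ × Multiset ℕ) (f' : (E' × Bool) ⊕ (Fin 7 × Bool) → V' × ℕ) :
    ∑ q ∈ Finset.range 7, ∑ p ∈ Finset.range (q + 1), (disc p (q - p) (6 - q) : ℚ) *
      ∑ σ, sg σ * pairC (K23 p) und (th p q σ) a' f' = 0 := by
  rw [sum_swap]
  refine Finset.sum_eq_zero fun p hp => ?_
  rw [Finset.mem_range] at hp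
  have : ∀ q ∈ Finset.Ico p 7, (disc p (q - p) (6 - q) : ℚ) *
      ∑ σ, sg σ * pairC (K23 p) und (th p q σ) a' f' =
      (disc p (q - p) (6 - q) : ℚ) * ∑ σ, sg σ * pairC (K23 p) und (th p p σ) a' f' := by
    intro q hq
    rw [Finset.mem_Ico] at hq
    simp only [red23 p q (by omega) (by omega)]
  rw [Finset.sum_congr rfl this, ← Finset.sum_mul, disc_sum' p hp, zero_mul]

theorem disc_rot : ∀ q < 7, ∀ p < q + 1, disc p (q - p) (6 - q) =
    disc (6 - q) (6 - q + p - (6 - q)) (6 - (6 - q + p)) := by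
  decide

theorem tot13 (a' : V' → ℕ × Multiset ℕ) (f' : (E' × Bool) ⊕ (Fin 7 × Bool) → V' × ℕ) :
    ∑ q ∈ Finset.range 7, ∑ p ∈ Finset.range (q + 1), (disc p (q - p) (6 - q) : ℚ) *
      ∑ σ, sg σ * pairC (K13 p q) und (th p q σ) a' f' = 0 := by
  rw [← tot12 a' f']
  rw [Finset.sum_sigma', Finset.sum_sigma']
  refine Finset.sum_nbij' (fun x => ⟨6 - x.1 + x.2, 6 - x.1⟩) (fun x => ⟨6 - x.2, x.1 - x.2⟩)
    ?_ ?_ ?_ ?_ ?_
  · intro x hx
    simp only [Finset.mem_sigma, Finset.mem_range] at hx ⊢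
    omega
  · intro x hx
    simp only [Finset.mem_sigma, Finset.mem_range] at hx ⊢
    omega
  · intro x hx
    simp only [Finset.mem_sigma, Finset.mem_range] at hx
    obtain ⟨x1, x2⟩ := x
    simp only at hx ⊢
    congr 1
    · omega
    · omega
  · intro x hx
    simp only [Finset.mem_sigma, Finset.mem_range] at hx
    obtain ⟨x1, x2⟩ := x
    simp only at hx ⊢
    congr 1
    · omega
    · omega
  · intro x hx
    simp only [Finset.mem_sigma, Finset.mem_range] at hx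
    simp only
    rw [sum13 x.2 x.1 (by omega) (by omega), disc_rot x.1 hx.1 x.2 hx.2]

end Vale.Agent.P273.Num
end
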