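import Vale.Agent.P273.D14.H593.NumDefs

/-!
The exotic relation: an antisymmetric combination of theta graphs with the coefficients of the
discriminant. Everything here is a definition.
-/

noncomputable section

namespace Vale.Agent.P273.Num

open Sum Vale.Agent.P273.Q
open scoped Classical Nat

/-- No decoration: genus `0`, no kappa classes. -/
def und {V : Type} : V → ℕ × Multiset ℕ := fun _ => (0, 0)

/-- The vertex at the end of an edge of the theta graph: the first chain has the inner vertices
`t < p`, the second one `p ≤ t < q`, the third one `q ≤ t < 6`; all chains end at `6`. The edge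
`inl r` is the first edge of the chain `r`, the edge `inr t` starts at `t`. -/
def hd (p q : ℕ) : Fin 3 ⊕ Fin 6 → Fin 7
  | inl 0 => if p = 0 then 6 else 0
  | inl 1 => if p = q then 6 else Fin.ofNat 7 p
  | inl 2 => Fin.ofNat 7 q
  | inr t => if t.1 + 1 = p ∨ t.1 + 1 = q then 6 else t.succ

/-- The theta graph: all chains start at the vertex `none`, which carries no legs; each other
vertex `some t` carries the leg `(i, b)` with `σ b i = t`, for `b = true` and for `b = false`. -/
def th (p q : ℕ) (σ : Bool → Equiv.Perm (Fin 7)) :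
    ((Fin 3 ⊕ Fin 6) × Bool) ⊕ (Fin 7 × Bool) → Option (Fin 7) × ℕ
  | inl (inl _, true) => (none, 0)
  | inl (inr t, true) => (some t.castSucc, 0)
  | inl (e, false) => (some (hd p q e), 0)
  | inr (i, b) => (some (σ b i), 0)

/-- The coefficient of `x^i y^j z^k`, `i + j + k = 6`, in `(x - y)² (y - z)² (z - x)²`. -/
def disc (i j k : ℕ) : ℤ :=
  if i * j * k = 8 then -6 else if i * j * k = 6 then 2 else if i * j * k = 4 then -2
  else if i = 6 ∨ j = 6 ∨ k = 6 then 0 else if i = 5 ∨ j = 5 ∨ k = 5 then 0
  else if i = 3 ∨ j = 3 ∨ k = 3 then -2 else 1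

/-- The sign. -/
def sg (σ : Bool → Equiv.Perm (Fin 7)) : ℚ := (Equiv.Perm.sign (σ true) * Equiv.Perm.sign (σ false) : ℤ)

end Vale.Agent.P273.Num
end
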