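import Vale.Agent.P273.D14.Move4

/-!
Pixton's relations are stable under the forgetful pullback: the dual of the forgetful pullback of a
functional that satisfies Pixton's relations satisfies Pixton's relations.
-/

noncomputable section
namespace Vale.Agent.P273.D14.Mv
open Sum Vale.Agent.P273 Vale.Agent.P273.C1.R3B Vale.Agent.P273.C1.R1B
open scoped Classical

variable {V E V' E' L M N R T : Type}

/-! ### Isomorphisms -/

lemma sg_iso {g d : ℕ} {s : Q.Fn N} (hs : Q.Tr g d s) {G : Gr V E N} {G' : Gr V' E' N}
    {φ : V → V'} {ρ : E × Bool → E' × Bool} (I : IsoData G G' φ ρ) : sg s G = sg s G' := by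
  have h := hs.2.1 V E V' E' G'.dec G.hf G'.hf φ ρ I.h1 I.h2 I.h3 I.h5
  have h3 : G'.dec ∘ φ = G.dec := funext fun v => I.h4 v
  rw [h3] at h
  exact h

lemma addLeg_isoData {G : Gr V E L} {G' : Gr V' E' L}
    {φ : V → V'} {ρ : E × Bool → E' × Bool} (I : IsoData G G' φ ρ) (v : V) (K : Multiset ℕ)
    (c : ℕ) : IsoData (G.addLeg v K c) (G'.addLeg (φ v) K c) φ ρ where
  h1 := I.h1
  h2 := I.h2
  h3 := I.h3
  h4 := by
    intro w
    by_cases hw : w = v
    · subst hw
      rw [addLeg_dec_self, addLeg_dec_self, I.h4]
    · rw [addLeg_dec_ne _ hw, addLeg_dec_ne _ (fun h => hw (I.h1.1 h)), I.h4]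
  h5 := by
    rintro (y | (_ | x))
    · exact I.h5 (inl y)
    · rfl
    · exact I.h5 (inr x)

/-- The map on half-edges of the bubbles. -/
def bρ (ρ : E × Bool → E' × Bool) : Option E × Bool → Option E' × Bool
  | (none, b) => (none, b)
  | (some e, b) => (some (ρ (e, b)).1, (ρ (e, b)).2)

lemma bubble_isoData {G : Gr V E L} {G' : Gr V' E' L}
    {φ : V → V'} {ρ : E × Bool → E' × Bool} (I : IsoData G G' φ ρ) (z : (E × Bool) ⊕ L) :
    IsoData (G.bubble z) (G'.bubble (z.map ρ id)) (Option.map φ) (bρ ρ) where
  h1 := by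
    constructor
    · rintro (_ | a) (_ | b) h
      · rfl
      · cases h
      · cases h
      · rw [I.h1.1 (Option.some.inj h)]
    · rintro (_ | b)
      · exact ⟨none, rfl⟩
      · obtain ⟨a, rfl⟩ := I.h1.2 b
        exact ⟨some a, rfl⟩
  h2 := by
    constructor
    · rintro ⟨_ | a, s⟩ ⟨_ | b, s'⟩ h
      · simp only [bρ, Prod.mk.injEq, true_and] at h
        rw [h]
      · simp [bρ] at h
      · simp [bρ] at h
      · simp only [bρ, Prod.mk.injEq, Option.some.injEq] at h
        have := I.h2.1 (Prod.ext h.1 h.2)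
        rw [Prod.mk.injEq] at this
        rw [this.1, this.2]
    · rintro ⟨_ | b, s⟩
      · exact ⟨(none, s), rfl⟩
      · obtain ⟨⟨a, s'⟩, h⟩ := I.h2.2 (b, s)
        exact ⟨(some a, s'), by simp [bρ, h]⟩
  h3 := by
    rintro (_ | e)
    · rfl
    · exact congrArg some (I.h3 e)
  h4 := by
    rintro (_ | v)
    · rfl
    · exact I.h4 v
  h5 := by
    intro y
    have key : ∀ y, (G'.bubble (z.map ρ id)).hf (oldf (y.map ρ id)) =
        ((G.bubble z).hf (oldf y)).map (Option.map φ) id := by
      intro y
      rw [bubble_old, bubble_old, bubold, bubold]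
      have h1 : y.map ρ id = z.map ρ id ↔ y = z := I.bij.1.eq_iff
      by_cases h : y = z
      · rw [if_pos h, if_pos (h1.2 h)]
        rfl
      · rw [if_neg h, if_neg (fun h' => h (h1.1 h')), I.h5]
        rfl
    rcases bubble_cases y with rfl | rfl | rfl | ⟨y', rfl⟩
    · rfl
    · change ((some (G'.hf (z.map ρ id)).1, (G'.hf (z.map ρ id)).2 - 1) : Option V' × ℕ) = _
      rw [I.h5]
      rfl
    · rfl
    · rw [← key]
      rcases y' with y' | x <;> rfl

lemma lterm_iso {g d : ℕ} {s : Q.Fn (Option N)} (hs : Q.Tr g d s) {G : Gr V E N}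
    {G' : Gr V' E' N} {φ : V → V'} {ρ : E × Bool → E' × Bool} (I : IsoData G G' φ ρ) (v : V) :
    lterm s G v = lterm s G' (φ v) := by
  unfold lterm
  rw [I.h4, sg_iso hs (addLeg_isoData I v (G.dec v).2 0)]
  congr 2
  refine Multiset.map_congr rfl fun k _ => ?_
  rw [sg_iso hs (addLeg_isoData I v ((G.dec v).2.erase k) k)]

lemma pb_iso {g d : ℕ} {s : Q.Fn (Option N)} (hs : Q.Tr g d s) {G : Gr V E N}
    {G' : Gr V' E' N} {φ : V → V'} {ρ : E × Bool → E' × Bool} (I : IsoData G G' φ ρ) :
    pb s V E G.dec G.hf = pb s V' E' G'.dec G'.hf := by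
  rw [pb_eq', pb_eq', finsum_eq_of_bijective φ I.h1 fun v => lterm_iso hs I v]
  congr 1
  refine finsum_eq_of_bijective _ I.bij fun z => ?_
  rw [I.hf_snd, sg_iso hs (bubble_isoData I z)]

lemma finite_iff_iso {G : Gr V E N} {G' : Gr V' E' N} {φ : V → V'}
    {ρ : E × Bool → E' × Bool} (I : IsoData G G' φ ρ) :
    (Finite V ↔ Finite V') ∧ (Finite E ↔ Finite E') := by
  constructor
  · exact (Equiv.ofBijective φ I.h1).finite_iff
  · exact finite_prod_bool.symm.trans ((Equiv.ofBijective ρ I.h2).finite_iff.trans
      finite_prod_bool)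

lemma cstab_iso {g d : ℕ} {G : Gr V E N} {G' : Gr V' E' N} {φ : V → V'}
    {ρ : E × Bool → E' × Bool} (I : IsoData G G' φ ρ) (h : Q.Stab G.dec G.hf g d) :
    Q.Stab G'.dec G'.hf g d := by
  rw [cStab_iff] at h ⊢
  obtain ⟨h1, h2, h3, h4⟩ := h
  obtain ⟨k1, k2⟩ := finite_iff_iso I
  exact ⟨k1.1 h1, k2.1 h2, I.stab h3, by rw [← h4]; exact I.deg_eq⟩

lemma pull_eq_zero {g d : ℕ} (t : Q.Fn (Option L)) {a : V → ℕ × Multiset ℕ}
    {f : (E × Bool) ⊕ L → V × ℕ} (h : ¬ Q.Stab a f g d) : Q.pull g d t V E a f = 0 := by
  unfold Q.pull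
  rw [finsum_eq_if, if_neg h]

lemma pull_iso {g d : ℕ} {s : Q.Fn (Option N)} (hs : Q.Tr g d s) {G : Gr V E N}
    {G' : Gr V' E' N} {φ : V → V'} {ρ : E × Bool → E' × Bool} (I : IsoData G G' φ ρ) :
    Q.pull g d s V E G.dec G.hf = Q.pull g d s V' E' G'.dec G'.hf := by
  by_cases h : Q.Stab G.dec G.hf g d
  · rw [pull_eq g d s _ _ h, pull_eq g d s _ _ (cstab_iso I h), pb_iso hs I]
  · rw [pull_eq_zero s h, pull_eq_zero s fun h' => h (cstab_iso I.symm h')]

/-! ### The dilaton rule -/

lemma sg_dil {g d : ℕ} {s : Q.Fn N} (hs : Q.Tr g d s) (G G1 : Gr V E N) (v : V)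
    (h1 : G1.dec = Function.update G.dec v ((G.dec v).1, 0 ::ₘ (G.dec v).2)) (h2 : G1.hf = G.hf) :
    sg s G1 = (2 * ((G.dec v).1 : ℚ) - 2 + G.nv v + (G.dec v).2.card) * sg s G := by
  unfold sg
  rw [h1, h2]
  exact hs.2.2 V E G.dec G.hf v

lemma upd_ne {α β : Type} (i : DecidableEq α) (f : α → β) (a b : α) (v : β) (h : b ≠ a) :
    @Function.update α (fun _ => β) i f a v b = f b := Function.update_of_ne h _ _

lemma upd_self {α β : Type} (i : DecidableEq α) (f : α → β) (a : α) (v : β) :
    @Function.update α (fun _ => β) i f a v a = v := Function.update_self _ _ _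

lemma pb_dil [Finite V] [Finite E] [Finite N] {g d : ℕ} {s : Q.Fn (Option N)} (hs : Q.Tr g d s)
    (a : V → ℕ × Multiset ℕ) (f : (E × Bool) ⊕ N → V × ℕ) (v : V) :
    pb s V E (Function.update a v ((a v).1, 0 ::ₘ (a v).2)) f =
      (2 * ((a v).1 : ℚ) - 2 + Q.nv f v + (a v).2.card) * pb s V E a f := by
  set G : Gr V E N := ⟨a, f⟩ with hG
  set G1 : Gr V E N := ⟨Function.update a v ((a v).1, 0 ::ₘ (a v).2), f⟩ with hG1
  have e0 : pb s V E (Function.update a v ((a v).1, 0 ::ₘ (a v).2)) f =
    pb s V E G1.dec G1.hf := rfl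
  have e1 : pb s V E a f = pb s V E G.dec G.hf := rfl
  have hnv : Q.nv f v = G.nv v := rfl
  have hdv : G1.dec v = ((a v).1, 0 ::ₘ (a v).2) := by simp [hG1]
  have hdw : ∀ w, w ≠ v → G1.dec w = a w := fun w hw => by simp [hG1, hw]
  rw [e0, e1, hnv, pb_eq', pb_eq', mul_sub, mul_finsum', mul_finsum']
  · congr 1
    · refine finsum_congr fun w => ?_
      unfold lterm
      by_cases hw : w = v
      · subst hw
        rw [hdv]
        have k1 : sg s (G1.addLeg w (0 ::ₘ (a w).2) 0) =
            (2 * ((a w).1 : ℚ) - 2 + (G.nv w + 1) + (a w).2.card) * sg s (G.addLeg w (a w).2 0) := by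
          have := sg_dil hs (G.addLeg w (a w).2 0) (G1.addLeg w (0 ::ₘ (a w).2) 0) w ?_ rfl
          · rw [this, addLeg_dec_self, nv_addLeg, if_pos rfl]
            push_cast
            rfl
          · rw [addLeg_dec_self]
            change Function.update (Function.update a w _) w _ =
              Function.update (Function.update a w _) w _
            rw [Function.update_idem, Function.update_idem]
            simp [hG1, hG]
        have k2 : ∀ k ∈ (a w).2, sg s (G1.addLeg w ((0 ::ₘ (a w).2).erase k) k) =
            (2 * ((a w).1 : ℚ) - 2 + G.nv w + (a w).2.card) *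
              sg s (G.addLeg w ((a w).2.erase k) k) := by
          intro k hk
          rw [Multiset.erase_cons_tail_of_mem hk]
          have := sg_dil hs (G.addLeg w ((a w).2.erase k) k)
            (G1.addLeg w (0 ::ₘ (a w).2.erase k) k) w ?_ rfl
          · rw [this, addLeg_dec_self, nv_addLeg, if_pos rfl]
            dsimp only
            rw [Multiset.card_erase_of_mem hk]
            have : 0 < (a w).2.card := Multiset.card_pos_iff_exists_mem.2 ⟨k, hk⟩
            obtain ⟨n, hn⟩ : ∃ n, (a w).2.card = n + 1 := ⟨(a w).2.card - 1, by omega⟩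
            rw [hn]
            have : Nat.pred (n + 1) = n := rfl
            rw [this]
            push_cast
            change (2 * ((a w).1 : ℚ) - 2 + (_ + 1) + n) * _ = _
            ring
          · rw [addLeg_dec_self]
            change Function.update (Function.update a w _) w _ =
              Function.update (Function.update a w _) w _
            rw [Function.update_idem, Function.update_idem]
            simp [hG1, hG]
        have k3 : sg s (G1.addLeg w (a w).2 0) = sg s (G.addLeg w (a w).2 0) := by
          have e2 : (G1.addLeg w (a w).2 0).dec = (G.addLeg w (a w).2 0).dec := by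
            change Function.update (Function.update a w _) w _ = Function.update a w _
            rw [Function.update_idem]
            simp [hG1, hG]
          unfold sg
          rw [e2]
          rfl
        dsimp only
        rw [Multiset.map_cons, Multiset.sum_cons, Multiset.erase_cons_head, k1, k3,
          Multiset.map_congr rfl k2, Multiset.sum_map_mul_left]
        change _ = (2 * ((a w).1 : ℚ) - 2 + G.nv w + (a w).2.card) * (sg s (G.addLeg w (a w).2 0) -
          (Multiset.map (fun k => sg s (G.addLeg w ((a w).2.erase k) k)) (a w).2).sum)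
        ring
      · rw [hdw w hw]
        have k1 : ∀ K c, sg s (G1.addLeg w K c) =
            (2 * ((a v).1 : ℚ) - 2 + G.nv v + (a v).2.card) * sg s (G.addLeg w K c) := by
          intro K c
          have := sg_dil hs (G.addLeg w K c) (G1.addLeg w K c) v ?_ rfl
          · rw [this, addLeg_dec_ne _ (Ne.symm hw), nv_addLeg, if_neg hw, add_zero]
          · rw [addLeg_dec_ne _ (Ne.symm hw)]
            change Function.update (Function.update a v _) w _ =
              Function.update (Function.update a w _) v _
            rw [Function.update_comm (Ne.symm hw)]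
            simp [hG1, hG, Function.update_of_ne hw]
        rw [k1]
        simp only [k1]
        rw [Multiset.sum_map_mul_left, ← mul_sub]
    · refine finsum_congr fun z => ?_
      rw [finsum_eq_if, finsum_eq_if, mul_ite, mul_zero]
      by_cases hz : (f z).2 ≠ 0
      · rw [if_pos hz, if_pos hz]
        have := sg_dil hs (G.bubble z) (G1.bubble z) (some v) ?_ rfl
        · rw [this, nv_bubble]
          rfl
        · funext w
          rcases w with _ | w
          · rw [upd_ne _ _ _ _ _ (by simp)]
            rfl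
          · by_cases hw : w = v
            · subst hw
              rw [upd_self]
              change G1.dec w = _
              rw [hdv]
              rfl
            · rw [upd_ne _ _ _ _ _ (by simpa using hw)]
              change G1.dec w = _
              rw [hdw w hw]
              rfl
      · rw [if_neg hz, if_neg hz]
  · exact Set.toFinite _
  · exact Set.toFinite _

lemma stab_upd {g d : ℕ} (a : V → ℕ × Multiset ℕ) (f : (E × Bool) ⊕ N → V × ℕ) (v : V)
    (h : Q.Stab a f g d) : Q.Stab (Function.update a v ((a v).1, 0 ::ₘ (a v).2)) f g d := by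
  have h1 : ∀ w, (Function.update a v ((a v).1, 0 ::ₘ (a v).2) w).1 = (a w).1 := by
    intro w
    by_cases hw : w = v
    · subst hw; simp
    · rw [Function.update_of_ne hw]
  have h2 : ∀ w, (Function.update a v ((a v).1, 0 ::ₘ (a v).2) w).2.sum = (a w).2.sum := by
    intro w
    by_cases hw : w = v
    · subst hw; simp
    · rw [Function.update_of_ne hw]
  unfold Q.Stab at h ⊢
  simpa only [h1, h2] using h

lemma stab_upd' {g d : ℕ} (a : V → ℕ × Multiset ℕ) (f : (E × Bool) ⊕ N → V × ℕ) (v : V)
    (h : Q.Stab (Function.update a v ((a v).1, 0 ::ₘ (a v).2)) f g d) : Q.Stab a f g d := by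
  have h1 : ∀ w, (Function.update a v ((a v).1, 0 ::ₘ (a v).2) w).1 = (a w).1 := by
    intro w
    by_cases hw : w = v
    · subst hw; simp
    · rw [Function.update_of_ne hw]
  have h2 : ∀ w, (Function.update a v ((a v).1, 0 ::ₘ (a v).2) w).2.sum = (a w).2.sum := by
    intro w
    by_cases hw : w = v
    · subst hw; simp
    · rw [Function.update_of_ne hw]
  unfold Q.Stab at h ⊢
  simpa only [h1, h2] using h

/-- The dual of the forgetful pullback is a functional on the strata algebra, if it vanishes on the
decorations of too large degree. -/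
theorem tr_pull [Finite N] {g d : ℕ} {s : Q.Fn (Option N)} (hs : Q.Tr g d s)
    (hv : ∀ (V E : Type) (G : Gr V E N), Q.Stab G.dec G.hf g d → ¬ Q.Valid G.dec G.hf g d →
      pb s V E G.dec G.hf = 0) : Q.Tr g d (Q.pull g d s) := by
  refine ⟨?_, ?_, ?_⟩
  · intro V E a f h
    by_cases h1 : Q.Stab a f g d
    · rw [pull_eq g d s _ _ h1]
      exact hv V E ⟨a, f⟩ h1 h
    · exact pull_eq_zero s h1
  · intro V E V' E' a f f' p q k1 k2 k3 k5
    have I : IsoData (⟨a ∘ p, f⟩ : Gr V E N) (⟨a, f'⟩ : Gr V' E' N) p q :=
      ⟨k1, k2, k3, fun _ => rfl, k5⟩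
    exact pull_iso hs I
  · intro V E a f v
    by_cases h1 : Q.Stab a f g d
    · have hV := h1.1
      have hE := h1.2.1
      rw [pull_eq g d s _ _ h1, pull_eq g d s _ _ (stab_upd a f v h1), pb_dil hs]
    · rw [pull_eq_zero s h1, pull_eq_zero s fun h' => h1 (stab_upd' a f v h'), mul_zero]

/-! ### The relations -/

/-- The formal pullback of a graph that is not stable of the right genus and degree, and whose
unstable vertices have kappa decorations. -/
theorem pb_unstab [Finite V] [Finite E] [Finite N] {s : Q.Fn (Option N)} {g d : ℕ}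
    (hs : Q.Tr g d s) (hg : 2 < 2 * g + Nat.card N) (G : Gr V E N)
    (hst : ∀ v, 2 < 2 * (G.dec v).1 + G.nv v ∨ (G.dec v).2 ≠ 0)
    (hns : ¬ Q.Stab G.dec G.hf g d) : pb s V E G.dec G.hf = 0 := by
  by_cases hall : ∀ v, 2 < 2 * (G.dec v).1 + G.nv v
  · have hP : ¬ Pre G g d := fun hP => hns (stab_of_pre hP hall)
    rw [pb_eq', finsum_eq_zero_of_forall_eq_zero fun v => lterm_zero hs fun K c hK hv =>
      hP (addLeg_pre (valid_pre hv) hK), finsum_eq_zero_of_forall_eq_zero, sub_zero]
    intro z
    rw [finsum_eq_if]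
    split_ifs with hz
    · refine hs.1 _ _ _ _ fun hv => hP ?_
      exact bubble_pre hz (valid_pre hv)
    · rfl
  · push Not at hall
    obtain ⟨v0, h0⟩ := hall
    have hne : (G.dec v0).2 ≠ 0 := by
      rcases hst v0 with h | h
      · omega
      · exact h
    rw [pb_eq', finsum_eq_zero_of_forall_eq_zero, finsum_eq_zero_of_forall_eq_zero, sub_zero]
    · intro z
      rw [finsum_eq_if]
      split_ifs with hz
      · refine hs.1 _ _ _ _ ?_
        apply not_valid_of_unstable (v := some v0)
        rw [nv_bubble]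
        exact h0
      · rfl
    · intro v
      by_cases hv : v = v0
      · subst hv
        have hcase : ((G.dec v).1 = 0 ∧ G.nv v < 2) ∨ ((G.dec v).1 = 0 ∧ G.nv v = 2) ∨
            ((G.dec v).1 = 1 ∧ G.nv v = 0) := by omega
        rcases hcase with ⟨h1, h2⟩ | ⟨h1, h2⟩ | ⟨h1, h2⟩
        · apply lterm_zero hs
          intro K c _
          apply not_valid_of_unstable (v := v)
          rw [addLeg_dec_self, nv_addLeg, if_pos rfl, h1]
          omega
        · exact lterm_dil hs h1 h2 hne
        · apply lterm_zero hs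
          intro K c _ hval
          obtain ⟨_, hconn, hgen, _⟩ := valid_pre hval
          have hno : ∀ y, (G.hf y).1 ≠ v := by
            intro y hy
            have := Fintype.ofFinite E
            have := Fintype.ofFinite N
            have h3 : 0 < G.nv v := by
              unfold Gr.nv
              have : Nonempty {y // (G.hf y).1 = v} := ⟨⟨y, hy⟩⟩
              exact Nat.card_pos
            omega
          have h3 := hconn {v} (by
            intro e
            constructor
            · intro h
              exact absurd h (hno (inl (e, true)))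
            · intro h
              exact absurd h (hno (inl (e, false))))
          have h4 : ({v} : Set V) = Set.univ := by
            rcases h3 with h3 | h3
            · exact absurd h3 (Set.singleton_ne_empty v)
            · exact h3
          have h5 : ∀ w, w = v := by
            intro w
            have : w ∈ ({v} : Set V) := by rw [h4]; trivial
            exact this
          have hE : IsEmpty E := ⟨fun e => hno (inl (e, true)) (h5 _)⟩
          have hN : IsEmpty N := ⟨fun e => hno (inr e) (h5 _)⟩
          have hU : Unique V := ⟨⟨v⟩, h5⟩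
          rw [finsum_unique] at hgen
          have h6 : (default : V) = v := h5 _
          rw [h6, addLeg_dec_self, h1, Nat.card_of_isEmpty (α := E), Nat.card_unique] at hgen
          rw [Nat.card_of_isEmpty (α := N)] at hg
          omega
      · apply lterm_zero hs
        intro K c _
        apply not_valid_of_unstable (v := v0)
        rw [addLeg_dec_ne G (Ne.symm hv), nv_addLeg, if_neg hv]
        exact h0

theorem pull_pb [Finite V] [Finite E] [Finite N] {s : Q.Fn (Option N)} {g d : ℕ}
    (hs : Q.Tr g d s) (hg : 2 < 2 * g + Nat.card N) (G : Gr V E N)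
    (hst : ∀ v, 2 < 2 * (G.dec v).1 + G.nv v ∨ (G.dec v).2 ≠ 0) :
    Q.pull g d s V E G.dec G.hf = pb s V E G.dec G.hf := by
  by_cases h : Q.Stab G.dec G.hf g d
  · exact pull_eq g d s _ _ h
  · rw [pull_eq_zero s h, pb_unstab hs hg G hst h]

/-- The dual pullback of a functional that satisfies Pixton's relations kills Pixton's
relations. -/
theorem rl_pull [Finite R] [Finite T] [Finite L] [Finite N] {g d : ℕ}
    {s : Q.Fn (Option N)} (hs : Q.Tr g d s) (hg : 2 < 2 * g + Nat.card N)
    (W : Env R T L N) (hW : ∀ y z x, W.use y = inl x → W.use z = inl x → y = z)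
    (A : L → ℕ) (hA : ∀ x, A x ≤ 1) (γ e : ℕ)
    (h0 : rlE s (optE W) (Option.elim' 0 A) γ e = 0)
    (h1 : ∀ x, inl x ∉ Set.range W.use → rlE s (putE W (inl x)) A γ e = 0)
    (h2 : ∀ r K c, rlE s (kapE W r K c) A γ e = 0)
    (h3 : ∀ y, rlE s (bubE W y) A γ e = 0) :
    rlE (Q.pull g d s) W A γ e = 0 := by
  have := Fintype.ofFinite R
  have := Fintype.ofFinite T
  have := Fintype.ofFinite L
  have := Fintype.ofFinite N
  rw [rlE_eq]
  by_cases hR : ∀ r, 2 < 2 * (W.dec r).1 + W.nR r
  · by_cases hγ : 2 < 2 * γ + Nat.card L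
    · have k1 := kthm (fun V E a f => sg s ((optE W).graft (⟨a, f⟩ :
        Gr V E (Option L)))) A hA γ e hγ (inv_graft hs (optE W)) (optE_deg_zero hs W hW)
      have k2 : ∀ p ∈ supp γ A e, cf γ A e p * sg (Q.pull g d s) (W.graft p.2.2) =
          cf γ A e p * pb (fun V E a f =>
          sg s ((optE W).graft (⟨a, f⟩ : Gr V E (Option L)))) _ _ p.2.2.dec p.2.2.hf +
          (∑ r, (cf γ A e p * sg s ((kapE W r (W.dec r).2 0).graft p.2.2) -
            ((W.dec r).2.map fun k => cf γ A e p *
              sg s ((kapE W r ((W.dec r).2.erase k) k).graft p.2.2)).sum) -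
          ∑ x, (if inl x ∉ Set.range W.use then
            cf γ A e p * sg s ((putE W (inl x)).graft p.2.2) else 0) -
          ∑ y, (if BC W y then cf γ A e p * sg s ((bubE W y).graft p.2.2) else 0)) := by
        intro p _
        have k3 : cf γ A e p * sg (Q.pull g d s) (W.graft p.2.2) =
            cf γ A e p * pb s _ _ (W.graft p.2.2).dec (W.graft p.2.2).hf := by
          by_cases hw : wt p.2.2 γ A e = 0
          · rw [cf, hw, zero_div, zero_mul, zero_mul]
          · unfold sg
            rw [pull_pb hs hg _ (stable_or W hW hR _ (wt_ne_zero hw).1.2.2.2)]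
        rw [k3, pb_graft hs W hW, finsum_eq_sum_of_fintype, finsum_eq_sum_of_fintype,
          finsum_eq_sum_of_fintype]
        have e1 : ∑ r, (cf γ A e p * sg s ((kapE W r (W.dec r).2 0).graft p.2.2) -
            ((W.dec r).2.map fun k => cf γ A e p *
              sg s ((kapE W r ((W.dec r).2.erase k) k).graft p.2.2)).sum) =
            cf γ A e p * ∑ r, (sg s ((kapE W r (W.dec r).2 0).graft p.2.2) -
            ((W.dec r).2.map fun k =>
              sg s ((kapE W r ((W.dec r).2.erase k) k).graft p.2.2)).sum) := by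
          rw [Finset.mul_sum]
          apply Finset.sum_congr rfl
          intro r _
          rw [mul_sub, Multiset.sum_map_mul_left]
        have e2 : ∑ x, (if inl x ∉ Set.range W.use then
            cf γ A e p * sg s ((putE W (inl x)).graft p.2.2) else 0) =
            cf γ A e p * ∑ x, ∑ᶠ (_ : inl x ∉ Set.range W.use),
              sg s ((putE W (inl x)).graft p.2.2) := by
          rw [Finset.mul_sum]
          apply Finset.sum_congr rfl
          intro x _
          rw [finsum_eq_if]
          split_ifs <;> simp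
        have e3 : ∑ y, (if BC W y then cf γ A e p * sg s ((bubE W y).graft p.2.2) else 0) =
            cf γ A e p * ∑ y, ∑ᶠ (_ : BC W y), sg s ((bubE W y).graft p.2.2) := by
          rw [Finset.mul_sum]
          apply Finset.sum_congr rfl
          intro x _
          rw [finsum_eq_if]
          split_ifs <;> simp
        rw [e1, e2, e3]
        ring
      rw [Finset.sum_congr rfl k2, Finset.sum_add_distrib, ← k1, ← rlE_eq, h0, zero_add,
        Finset.sum_sub_distrib, Finset.sum_sub_distrib, Finset.sum_comm,
        Finset.sum_comm (s := supp γ A e), Finset.sum_comm (s := supp γ A e)]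
      have e1 : ∀ r ∈ Finset.univ, ∑ p ∈ supp γ A e,
          (cf γ A e p * sg s ((kapE W r (W.dec r).2 0).graft p.2.2) -
            ((W.dec r).2.map fun k => cf γ A e p *
              sg s ((kapE W r ((W.dec r).2.erase k) k).graft p.2.2)).sum) = 0 := by
        intro r _
        rw [Finset.sum_sub_distrib, ← rlE_eq, h2, zero_sub, neg_eq_zero]
        have e4 : ∀ k, ∑ p ∈ supp γ A e, cf γ A e p *
              sg s ((kapE W r ((W.dec r).2.erase k) k).graft p.2.2) = 0 := by
          intro k
          rw [← rlE_eq, h2]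
        rw [sum_map_swap]
        simp [e4]
      have e2 : ∀ x ∈ Finset.univ, ∑ p ∈ supp γ A e, (if inl x ∉ Set.range W.use then
            cf γ A e p * sg s ((putE W (inl x)).graft p.2.2) else 0) = 0 := by
        intro x _
        by_cases hx : inl x ∉ Set.range W.use
        · simp only [if_pos hx]
          rw [← rlE_eq, h1 x hx]
        · simp only [if_neg hx]
          rw [Finset.sum_const_zero]
      have e3 : ∀ y ∈ Finset.univ, ∑ p ∈ supp γ A e, (if BC W y then
          cf γ A e p * sg s ((bubE W y).graft p.2.2) else 0) = 0 := by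
        intro y _
        by_cases hx : BC W y
        · simp only [if_pos hx]
          rw [← rlE_eq, h3 y]
        · simp only [if_neg hx]
          rw [Finset.sum_const_zero]
      rw [Finset.sum_eq_zero e1, Finset.sum_eq_zero e2, Finset.sum_eq_zero e3]
      ring
    · apply Finset.sum_eq_zero
      intro p _
      by_cases hw : wt p.2.2 γ A e = 0
      · rw [cf, hw, zero_div, zero_mul]
      · exfalso
        have hS := (wt_ne_zero hw).1
        have := Fintype.ofFinite L
        have h4 := hS.sum_chi (inferInstance : Finite (Fin p.2.1))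
        have h5 : ∀ v ∈ Finset.univ, (1 : ℚ) ≤ 2 * ((p.2.2.dec v).1 : ℚ) - 2 + p.2.2.nv v := by
          intro v _
          have h6 := hS.2.2.2 v
          have h7 : (3 : ℚ) ≤ 2 * (p.2.2.dec v).1 + p.2.2.nv v := by exact_mod_cast h6
          linarith
        have h8 : (0 : ℚ) < ∑ v, (2 * ((p.2.2.dec v).1 : ℚ) - 2 + p.2.2.nv v) := by
          apply Finset.sum_pos
          · intro v hv
            linarith [h5 v hv]
          · obtain ⟨v⟩ := hS.1
            exact ⟨v, Finset.mem_univ v⟩
        rw [h4] at h8
        have h9 : (2 * (γ : ℚ) + Nat.card L) ≤ 2 := by exact_mod_cast (not_lt.1 hγ)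
        linarith
  · push Not at hR
    obtain ⟨r, hr⟩ := hR
    apply Finset.sum_eq_zero
    intro p _
    have h0 : sg (Q.pull g d s) (W.graft p.2.2) = 0 := by
      apply pull_eq_zero
      intro hst
      have := hst.2.2.2.2.2.1 (inr r)
      change 2 < 2 * ((W.graft p.2.2).dec (inr r)).1 + (W.graft p.2.2).nv (inr r) at this
      rw [nv_graft_inr, Env.graft_dec_inr] at this
      omega
    rw [h0, mul_zero]

/-- Pixton's relations are stable under the forgetful pullback. -/
theorem pix_pull [Finite N] {g d : ℕ} (hg : 2 < 2 * g + Nat.card N) {s : Q.Fn (Option N)}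
    (hs : Q.Pix g d s)
    (hv : ∀ (V E : Type) (G : Gr V E N), Q.Stab G.dec G.hf g d → ¬ Q.Valid G.dec G.hf g d →
      pb s V E G.dec G.hf = 0) : Q.Pix g d (Q.pull g d s) := by
  rw [pix_iff] at hs ⊢
  obtain ⟨hT, hr⟩ := hs
  refine ⟨tr_pull hT hv, ?_⟩
  intro R T L r u b A γ e hR hT' hL hu hA hlt
  have key : ∀ {R T L : Type} [Finite R] [Finite T] [Finite L] (W : Env R T L (Option N))
      (A : L → ℕ), (∀ y z x, W.use y = inl x → W.use z = inl x → y = z) → (∀ x, A x ≤ 1) →
      γ + ∑ᶠ x, A x < 3 * e → rlE s W A γ e = 0 := by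
    intro R T L _ _ _ W A h1 h2 h3
    exact hr R T L W.dec W.use W.b A γ e inferInstance inferInstance inferInstance h1 h2 h3
  have := Fintype.ofFinite L
  refine rl_pull hT hg (⟨r, u, b⟩ : Env R T L N) hu A hA γ e ?_ ?_ ?_ ?_
  · refine key _ _ (optE_inj hu) ?_ ?_
    · rintro (_ | x)
      · exact Nat.zero_le _
      · exact hA x
    · rw [finsum_eq_sum_of_fintype, Fintype.sum_option]
      rw [finsum_eq_sum_of_fintype] at hlt
      simpa using hlt
  · intro x hx
    exact key _ _ (put_inj hu _ (Or.inl hx) rfl (putE_use_some _ _)) hA hlt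
  · intro r' K c
    exact key _ _ (put_inj hu _ (Or.inr ⟨_, rfl⟩) rfl (kapE_use_some _ r' K c)) hA hlt
  · intro y
    exact key _ _ (bubE_inj hu y) hA hlt

end Vale.Agent.P273.D14.Mv
end
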